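import Vale.Agent.P232.Slice.Slicing

/-!
# P232: slice areas, and the projection term as an integral over the slice area

The volume of a superlevel set is the integral of its slice areas, the slice area is continuous and
nonincreasing, and the area of the slice at the height of the level pushes the plane measure on the
projection of the level surface forward to Lebesgue measure between the two extreme slice areas.
-/

open MeasureTheory Set Filter
open scoped ENNReal Topology

namespace Vale.Agent.P232.Slice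

/-- The unit square. -/
abbrev square : Set (ℝ × ℝ) := I ×ˢ I

variable (g : R3 → ℝ)

/-- The superlevel set in the slice `z`. -/
def sliceSet (t z : ℝ) : Set (ℝ × ℝ) := {q | q ∈ square ∧ t < g (pt q.1 q.2 z)}

/-- The area of the slice `z` of a superlevel set. -/
noncomputable def sliceArea (t z : ℝ) : ℝ := (volume (sliceSet g t z)).toReal

variable {g}

theorem sliceSet_subset (t z : ℝ) : sliceSet g t z ⊆ square := fun _ h => h.1

theorem volume_sliceSet_ne_top (t z : ℝ) : volume (sliceSet g t z) ≠ ⊤ :=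
  ((measure_mono (sliceSet_subset t z)).trans_lt
    (isCompact_Icc.prod isCompact_Icc).measure_lt_top).ne

theorem ofReal_sliceArea (t z : ℝ) :
    ENNReal.ofReal (sliceArea g t z) = volume (sliceSet g t z) :=
  ENNReal.ofReal_toReal (volume_sliceSet_ne_top t z)

variable (hg : ContDiff ℝ 1 g)
include hg

theorem measurableSet_sliceSet (t z : ℝ) : MeasurableSet (sliceSet g t z) :=
  (measurableSet_Icc.prod measurableSet_Icc).inter
    (measurableSet_lt measurable_const (measurable_g_pt hg measurable_fst measurable_snd measurable_const))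

theorem measurable_volume_sliceSet :
    Measurable fun p : ℝ × ℝ => volume (sliceSet g p.1 p.2) := by
  have h : MeasurableSet {q : (ℝ × ℝ) × ℝ × ℝ | q.2 ∈ square ∧ q.1.1 < g (pt q.2.1 q.2.2 q.1.2)} :=
    (measurable_snd (measurableSet_Icc.prod measurableSet_Icc)).inter
      (measurableSet_lt measurable_fst.fst
        (measurable_g_pt hg measurable_snd.fst measurable_snd.snd measurable_fst.snd))
  exact measurable_measure_prodMk_left (ν := (volume : Measure (ℝ × ℝ))) h

theorem measurable_sliceArea : Measurable (Function.uncurry (sliceArea g)) :=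
  (measurable_volume_sliceSet hg).ennreal_toReal

/-- The volume of a superlevel set is the integral of its slice areas. -/
theorem ofReal_levelVol (t : ℝ) :
    ENNReal.ofReal (levelVol g t) = ∫⁻ z in I, ENNReal.ofReal (sliceArea g t z) := by
  have hS : MeasurableSet {p : R3 | t < g p} := measurableSet_lt measurable_const hg.continuous.measurable
  have hfin : volume {p ∈ cube | t < g p} ≠ ⊤ :=
    ((measure_mono fun _ h => h.1).trans_lt isCompact_Icc.measure_lt_top).ne
  rw [levelVol, Measure.real, ENNReal.ofReal_toReal hfin,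
    show {p ∈ cube | t < g p} = {p | t < g p} ∩ cube from inter_comm _ _,
    ← Measure.restrict_apply hS, ← lintegral_indicator_one hS]
  have hm : Measurable ({p : R3 | t < g p}.indicator (1 : R3 → ℝ≥0∞)) :=
    measurable_const.indicator hS
  rw [lintegral_cube hm]
  have hm3 : Measurable fun p : ℝ × ℝ × ℝ =>
      {p : R3 | t < g p}.indicator (1 : R3 → ℝ≥0∞) (pt p.1 p.2.1 p.2.2) :=
    hm.comp continuous_pt.measurable
  rw [rot3 (F := fun x y z => {p : R3 | t < g p}.indicator (1 : R3 → ℝ≥0∞) (pt x y z)) hm3,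
    rot3 (F := fun y z x => {p : R3 | t < g p}.indicator (1 : R3 → ℝ≥0∞) (pt x y z))
      (hm.comp (measurable_pt measurable_snd.snd measurable_fst measurable_snd.fst))]
  refine lintegral_congr fun z => ?_
  rw [ofReal_sliceArea]
  have hq : Measurable fun q : ℝ × ℝ =>
      {p : R3 | t < g p}.indicator (1 : R3 → ℝ≥0∞) (pt q.1 q.2 z) :=
    hm.comp (measurable_pt measurable_fst measurable_snd measurable_const)
  rw [← setLIntegral_prod (fun q : ℝ × ℝ =>
    {p : R3 | t < g p}.indicator (1 : R3 → ℝ≥0∞) (pt q.1 q.2 z)) hq.aemeasurable,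
    ← Measure.volume_eq_prod]
  have hT : MeasurableSet {q : ℝ × ℝ | t < g (pt q.1 q.2 z)} :=
    measurableSet_lt measurable_const (measurable_g_pt hg measurable_fst measurable_snd measurable_const)
  rw [show sliceSet g t z = {q : ℝ × ℝ | t < g (pt q.1 q.2 z)} ∩ square from inter_comm _ _,
    ← Measure.restrict_apply hT, ← lintegral_indicator_one hT]
  exact lintegral_congr fun q => rfl

variable (hneg : ∀ p ∈ cube, ∀ i, pd g i p < 0)
include hneg

theorem strictAntiOn₁ {x z : ℝ} (hx : x ∈ I) (hz : z ∈ I) :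
    StrictAntiOn (fun y => g (pt x y z)) I := by
  refine strictAntiOn_of_deriv_neg (convex_Icc 0 1)
    (fun y _ => (hasDerivAt_pt₁ hg x y z).continuousAt.continuousWithinAt) fun y hy => ?_
  rw [interior_Icc] at hy
  rw [(hasDerivAt_pt₁ hg x y z).deriv]
  exact hneg _ (pt_mem_cube hx (Ioo_subset_Icc_self hy) hz) 1

theorem strictAntiOn₂ {x y : ℝ} (hx : x ∈ I) (hy : y ∈ I) :
    StrictAntiOn (fun z => g (pt x y z)) I := by
  refine strictAntiOn_of_deriv_neg (convex_Icc 0 1)
    (fun z _ => (hasDerivAt_pt₂ hg x y z).continuousAt.continuousWithinAt) fun z hz => ?_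
  rw [interior_Icc] at hz
  rw [(hasDerivAt_pt₂ hg x y z).deriv]
  exact hneg _ (pt_mem_cube hx hy (Ioo_subset_Icc_self hz)) 2

/-- Level lines in a slice are null. -/
theorem volume_levelLine (t : ℝ) {z : ℝ} (hz : z ∈ I) :
    volume {q : ℝ × ℝ | q ∈ square ∧ g (pt q.1 q.2 z) = t} = 0 := by
  have hm : MeasurableSet {q : ℝ × ℝ | q ∈ square ∧ g (pt q.1 q.2 z) = t} :=
    (measurableSet_Icc.prod measurableSet_Icc).inter
      ((measurable_g_pt hg measurable_fst measurable_snd measurable_const) (measurableSet_singleton t))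
  rw [Measure.volume_eq_prod, Measure.prod_apply hm]
  refine (lintegral_congr fun x => ?_).trans lintegral_zero
  refine Set.Subsingleton.measure_zero (fun a ha b hb => ?_) _
  obtain ⟨⟨hx, hya⟩, ha'⟩ := ha
  obtain ⟨⟨-, hyb⟩, hb'⟩ := hb
  exact (strictAntiOn₁ hg hneg hx hz).injOn hya hyb (ha'.trans hb'.symm)

theorem sliceArea_antitoneOn (t : ℝ) : AntitoneOn (sliceArea g t) I := by
  intro a ha b hb hab
  refine ENNReal.toReal_mono (volume_sliceSet_ne_top t a) (measure_mono ?_)
  exact fun q hq => ⟨hq.1, hq.2.trans_le ((strictAntiOn₂ hg hneg hq.1.1 hq.1.2).antitoneOn ha hb hab)⟩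

omit hneg in
theorem sliceArea_eq_integral (t z : ℝ) :
    sliceArea g t z = ∫ q in square, (sliceSet g t z).indicator (fun _ => (1 : ℝ)) q := by
  rw [setIntegral_indicator (measurableSet_sliceSet hg t z), setIntegral_const,
    inter_eq_right.2 (sliceSet_subset t z), smul_eq_mul, mul_one]
  rfl

theorem sliceArea_continuousOn (t : ℝ) : ContinuousOn (sliceArea g t) I := by
  intro z hz
  rw [funext (sliceArea_eq_integral hg t)]
  have : IsFiniteMeasure (volume.restrict square) :=
    isFiniteMeasure_restrict.2 (isCompact_Icc.prod isCompact_Icc).measure_lt_top.ne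
  refine continuousWithinAt_of_dominated (bound := fun _ => 1) ?_ ?_ (integrable_const _) ?_
  · exact Eventually.of_forall fun w =>
      (measurable_const.indicator (measurableSet_sliceSet hg t w)).aestronglyMeasurable
  · refine Eventually.of_forall fun w => Eventually.of_forall fun q => ?_
    by_cases h : q ∈ sliceSet g t w <;> simp [h]
  · have h0 := volume_levelLine hg hneg t hz
    have hmem : ∀ᵐ q ∂(volume.restrict square), q ∈ square :=
      ae_restrict_mem (measurableSet_Icc.prod measurableSet_Icc)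
    have hne : ∀ᵐ q ∂(volume.restrict square), ¬(q ∈ square ∧ g (pt q.1 q.2 z) = t) :=
      ae_restrict_of_ae (measure_eq_zero_iff_ae_notMem.1 h0)
    filter_upwards [hmem, hne] with q hq hq'
    have hcz : ContinuousAt (fun w => g (pt q.1 q.2 w)) z :=
      (hasDerivAt_pt₂ hg q.1 q.2 z).continuousAt
    rcases lt_or_gt_of_ne (fun e => hq' ⟨hq, e⟩) with hlt | hgt
    · refine ContinuousWithinAt.congr_of_eventuallyEq (continuousWithinAt_const (b := (0 : ℝ))) ?_
        (indicator_of_notMem (fun h => not_lt.2 hlt.le h.2) _)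
      filter_upwards [nhdsWithin_le_nhds (hcz.eventually_lt_const hlt)] with w hw
      exact indicator_of_notMem (fun h => not_lt.2 hw.le h.2) _
    · refine ContinuousWithinAt.congr_of_eventuallyEq (continuousWithinAt_const (b := (1 : ℝ))) ?_
        (indicator_of_mem (show q ∈ sliceSet g t z from ⟨hq, hgt⟩) _)
      filter_upwards [nhdsWithin_le_nhds (hcz.eventually_const_lt hgt)] with w hw
      exact indicator_of_mem (show q ∈ sliceSet g t w from ⟨hq, hw⟩) _

/-- The points of the square under the slice `a` and above the slice `b` of the level surface. -/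
theorem volume_between (t : ℝ) {a b : ℝ} (ha : a ∈ I) (hb : b ∈ I) (hab : a ≤ b) :
    volume {q : ℝ × ℝ | q ∈ square ∧ g (pt q.1 q.2 b) < t ∧ t ≤ g (pt q.1 q.2 a)} =
      ENNReal.ofReal (sliceArea g t a - sliceArea g t b) := by
  have hsub : sliceSet g t b ⊆ sliceSet g t a := fun q hq =>
    ⟨hq.1, hq.2.trans_le ((strictAntiOn₂ hg hneg hq.1.1 hq.1.2).antitoneOn ha hb hab)⟩
  have hN : ∀ z ∈ I, ∀ᵐ q ∂(volume : Measure (ℝ × ℝ)), ¬(q ∈ square ∧ g (pt q.1 q.2 z) = t) :=
    fun z hz => measure_eq_zero_iff_ae_notMem.1 (volume_levelLine hg hneg t hz)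
  rw [ENNReal.ofReal_sub _ (show 0 ≤ sliceArea g t b from ENNReal.toReal_nonneg), ofReal_sliceArea, ofReal_sliceArea,
    ← measure_sdiff hsub (measurableSet_sliceSet hg t b).nullMeasurableSet
      (volume_sliceSet_ne_top t b)]
  refine measure_congr ?_
  filter_upwards [hN a ha, hN b hb] with q hqa hqb
  refine propext ⟨fun h => ?_, fun h => ?_⟩
  · exact ⟨⟨h.1, lt_of_le_of_ne h.2.2 fun e => hqa ⟨h.1, e.symm⟩⟩, fun h' => not_lt.2 h.2.1.le h'.2⟩
  · obtain ⟨⟨h1, h2⟩, h3⟩ := h
    exact ⟨h1, lt_of_le_of_ne (not_lt.1 fun e => h3 ⟨h1, e⟩) fun e => hqb ⟨h1, e⟩, h2.le⟩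

theorem height_spec (t : ℝ) {x y : ℝ} (hx : x ∈ I) (hy : y ∈ I)
    (h1 : g (pt x y 1) < t) (h0 : t < g (pt x y 0)) :
    height g t x y ∈ I ∧ g (pt x y (height g t x y)) = t := by
  obtain ⟨z, hz, e⟩ := intermediate_value_Icc' (zero_le_one' ℝ)
    (fun z _ => (hasDerivAt_pt₂ hg x y z).continuousAt.continuousWithinAt) ⟨h1.le, h0.le⟩
  have hh : height g t x y = z := by
    rw [← e]
    exact levelTop_apply (strictAntiOn₂ hg hneg hx hy) hz
  exact hh ▸ ⟨hz, e⟩

/-- The slice area at the height of the level has the uniform law on the interval of slice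
areas. -/
theorem map_sliceArea_height (t : ℝ) :
    (volume.restrict {q : ℝ × ℝ | q ∈ square ∧ g (pt q.1 q.2 1) < t ∧ t < g (pt q.1 q.2 0)}).map
        (fun q => sliceArea g t (height g t q.1 q.2)) =
      volume.restrict (Set.Ioc (sliceArea g t 1) (sliceArea g t 0)) := by
  set T := {q : ℝ × ℝ | q ∈ square ∧ g (pt q.1 q.2 1) < t ∧ t < g (pt q.1 q.2 0)} with hTdef
  set A := sliceArea g t
  have h0 : (0 : ℝ) ∈ I := left_mem_Icc.2 zero_le_one
  have h1 : (1 : ℝ) ∈ I := right_mem_Icc.2 zero_le_one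
  have hanti : AntitoneOn A I := sliceArea_antitoneOn hg hneg t
  have hcont : ContinuousOn A I := sliceArea_continuousOn hg hneg t
  have hΨ : Measurable fun q : ℝ × ℝ => A (height g t q.1 q.2) :=
    (measurable_sliceArea hg).comp (measurable_const.prodMk
      (measurable_height hg measurable_const measurable_fst measurable_snd))
  have hTv : volume T = ENNReal.ofReal (A 0 - A 1) := by
    rw [← volume_between hg hneg t h0 h1 zero_le_one]
    refine measure_congr ?_
    filter_upwards [measure_eq_zero_iff_ae_notMem.1 (volume_levelLine hg hneg t h0)] with q hq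
    exact propext ⟨fun h => ⟨h.1, h.2.1, h.2.2.le⟩,
      fun h => ⟨h.1, h.2.1, lt_of_le_of_ne h.2.2 fun e => hq ⟨h.1, e.symm⟩⟩⟩
  have : IsFiniteMeasure (volume.restrict T) :=
    isFiniteMeasure_restrict.2 (by rw [hTv]; exact ENNReal.ofReal_ne_top)
  refine Measure.ext_of_Iic _ _ fun a => ?_
  rw [Measure.map_apply hΨ measurableSet_Iic, Measure.restrict_apply (hΨ measurableSet_Iic),
    Measure.restrict_apply measurableSet_Iic]
  rcases lt_or_ge a (A 1) with ha1 | ha1
  · rw [show Set.Iic a ∩ Set.Ioc (A 1) (A 0) = ∅ from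
      eq_empty_of_forall_notMem fun r hr => absurd hr.2.1 (not_lt.2 (hr.1.trans ha1.le)),
      measure_empty]
    refine measure_mono_null (fun q hq => ?_) measure_empty
    obtain ⟨hq1, hq2⟩ := hq
    have hh := (height_spec hg hneg t hq2.1.1 hq2.1.2 hq2.2.1 hq2.2.2).1
    exact absurd (hanti hh h1 hh.2) (not_le.2 (lt_of_le_of_lt hq1 ha1))
  rcases le_or_gt (A 0) a with ha0 | ha0
  · rw [inter_eq_right.2 (show Set.Ioc (A 1) (A 0) ⊆ Set.Iic a from fun r hr => hr.2.trans ha0),
      Real.volume_Ioc, ← hTv, inter_eq_right.2]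
    intro q hq
    have hh := (height_spec hg hneg t hq.1.1 hq.1.2 hq.2.1 hq.2.2).1
    exact (hanti h0 hh hh.1).trans ha0
  obtain ⟨z0, ⟨hz0, hAz0⟩, hmin⟩ :
      ∃ z0 ∈ {z | z ∈ I ∧ A z = a}, ∀ z ∈ I, z < z0 → a < A z := by
    have hne : {z | z ∈ I ∧ A z = a}.Nonempty := by
      obtain ⟨z, hz, e⟩ := intermediate_value_Icc' zero_le_one hcont ⟨ha1, ha0.le⟩
      exact ⟨z, hz, e⟩
    have hcl : IsClosed {z | z ∈ I ∧ A z = a} :=
      hcont.preimage_isClosed_of_isClosed isClosed_Icc isClosed_singleton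
    have hbd : BddBelow {z | z ∈ I ∧ A z = a} := ⟨0, fun z hz => hz.1.1⟩
    refine ⟨sInf {z | z ∈ I ∧ A z = a}, hcl.csInf_mem hne hbd, fun z hz hlt => ?_⟩
    have hm := hcl.csInf_mem hne hbd
    rcases lt_or_eq_of_le (hm.2 ▸ hanti hz hm.1 hlt.le) with h | h
    · exact h
    · exact absurd (csInf_le hbd ⟨hz, h.symm⟩) (not_le.2 hlt)
  rw [show Set.Iic a ∩ Set.Ioc (A 1) (A 0) = Set.Ioc (A 1) a from ext fun r =>
    ⟨fun h => ⟨h.2.1, h.1⟩, fun h => ⟨h.2, h.1, h.2.trans ha0.le⟩⟩, Real.volume_Ioc, ← hAz0,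
    ← volume_between hg hneg t hz0 h1 hz0.2]
  have hz00 : 0 < z0 := lt_of_le_of_ne hz0.1 fun e => by
    rw [← e] at hAz0
    exact ha0.ne hAz0.symm
  congr 1
  ext q
  constructor
  · rintro ⟨hqa, hqs, hq1, hq0⟩
    obtain ⟨hh, e⟩ := height_spec hg hneg t hqs.1 hqs.2 hq1 hq0
    refine ⟨hqs, hq1, ?_⟩
    have : z0 ≤ height g t q.1 q.2 := not_lt.1 fun hlt => not_le.2 (hmin _ hh hlt) (hAz0 ▸ hqa)
    exact e.symm.le.trans ((strictAntiOn₂ hg hneg hqs.1 hqs.2).antitoneOn hz0 hh this)
  · rintro ⟨hqs, hq1, hqz⟩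
    have hq0 : t < g (pt q.1 q.2 0) :=
      hqz.trans_lt (strictAntiOn₂ hg hneg hqs.1 hqs.2 h0 hz0 hz00)
    obtain ⟨hh, e⟩ := height_spec hg hneg t hqs.1 hqs.2 hq1 hq0
    refine ⟨?_, hqs, hq1, hq0⟩
    have : z0 ≤ height g t q.1 q.2 :=
      ((strictAntiOn₂ hg hneg hqs.1 hqs.2).le_iff_ge hh hz0).1 (e.le.trans hqz)
    exact hanti hz0 hh this

/-- The projection term of a calibration that depends on the slice area. -/
theorem topInt_sliceArea (t : ℝ) {b : ℝ → ℝ} (hb : Measurable b) :
    topInt g (fun z => b (sliceArea g t z)) t =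
      ∫⁻ a in Set.Ioc (sliceArea g t 1) (sliceArea g t 0), ENNReal.ofReal (b a) := by
  have hΨ : Measurable fun q : ℝ × ℝ => sliceArea g t (height g t q.1 q.2) :=
    (measurable_sliceArea hg).comp (measurable_const.prodMk
      (measurable_height hg measurable_const measurable_fst measurable_snd))
  rw [← map_sliceArea_height hg hneg t, lintegral_map hb.ennreal_ofReal hΨ]
  have hS : MeasurableSet {q : ℝ × ℝ | g (pt q.1 q.2 1) < t ∧ t < g (pt q.1 q.2 0)} :=
    (measurableSet_lt (measurable_g_pt hg measurable_fst measurable_snd measurable_const)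
      measurable_const).inter (measurableSet_lt measurable_const
        (measurable_g_pt hg measurable_fst measurable_snd measurable_const))
  have hm : Measurable ({q : ℝ × ℝ | g (pt q.1 q.2 1) < t ∧ t < g (pt q.1 q.2 0)}.indicator
      fun q => ENNReal.ofReal (b (sliceArea g t (height g t q.1 q.2)))) :=
    (hb.ennreal_ofReal.comp hΨ).indicator hS
  rw [show {q : ℝ × ℝ | q ∈ square ∧ g (pt q.1 q.2 1) < t ∧ t < g (pt q.1 q.2 0)} =
      {q : ℝ × ℝ | g (pt q.1 q.2 1) < t ∧ t < g (pt q.1 q.2 0)} ∩ square from inter_comm _ _,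
    ← Measure.restrict_restrict hS, ← lintegral_indicator hS, show square = I ×ˢ I from rfl,
    Measure.volume_eq_prod, setLIntegral_prod _ hm.aemeasurable, topInt]
  refine lintegral_congr fun x => lintegral_congr fun y => ?_
  simp only [indicator_apply, mem_Ioo]
  rfl

end Vale.Agent.P232.Slice
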