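import Vale.Agent.P232.Slice.Coarea
import Vale.Agent.P232.Slice.Area

/-!
# P232: the calibrated slicing inequality at almost every level

Tested against any set of levels, both sides are integrals over the cube, where the inequality
between the integrands is pointwise. The projection term is an integral over the slice areas.
-/

open MeasureTheory Set Real
open scoped ENNReal

namespace Vale.Agent.P232

open Slice (I)

variable {g : R3 → ℝ}

/-- The two definitions of the slice area agree. -/
theorem sliceArea_eq (hg : Good g) (s z : ℝ) : Slice.sliceArea g s z = sliceArea g s z := by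
  have hm : Measurable fun x : ℝ => volume {y ∈ I | s < g (pt x y z)} := by
    have hS : MeasurableSet {q : ℝ × ℝ | q.2 ∈ I ∧ s < g (pt q.1 q.2 z)} :=
      (measurable_snd measurableSet_Icc).inter (measurableSet_lt measurable_const
        (Slice.measurable_g_pt hg.smooth measurable_fst measurable_snd measurable_const))
    exact measurable_measure_prodMk_left (ν := (volume : Measure ℝ)) hS
  have hfin : ∀ x : ℝ, volume {y ∈ I | s < g (pt x y z)} < ⊤ := fun x =>
    (measure_mono fun _ h => h.1).trans_lt isCompact_Icc.measure_lt_top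
  rw [Slice.sliceArea, sliceArea]
  rw [show (∫ x in Icc (0 : ℝ) 1, lenY g s x z) =
      ∫ x in Icc (0 : ℝ) 1, (volume {y ∈ I | s < g (pt x y z)}).toReal from rfl,
    integral_toReal hm.aemeasurable (Filter.Eventually.of_forall hfin), Measure.volume_eq_prod,
    Measure.prod_apply (Slice.measurableSet_sliceSet hg.smooth s z),
    ← lintegral_indicator measurableSet_Icc]
  congr 1
  refine lintegral_congr fun x => ?_
  by_cases hx : x ∈ Icc (0 : ℝ) 1
  · rw [indicator_of_mem hx]
    congr 1
    ext y
    exact ⟨fun h => ⟨h.1.2, h.2⟩, fun h => ⟨⟨hx, h.1⟩, h.2⟩⟩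
  · rw [indicator_of_notMem hx]
    exact measure_mono_null (fun y h => absurd h.1.1 hx) measure_empty

theorem measurable_sliceArea' (hg : Good g) : Measurable (Function.uncurry (sliceArea g)) := by
  rw [show sliceArea g = Slice.sliceArea g from funext₂ fun s z => (sliceArea_eq hg s z).symm]
  exact Slice.measurable_sliceArea hg.smooth

/-- The weighted slice lengths as an integral over the cube. -/
theorem lintegral_sliceLen_weighted (hg : Good g) {c : ℝ → ℝ → ℝ≥0∞}
    (hc : Measurable (Function.uncurry c)) :
    ∫⁻ s, ∫⁻ z in Icc (0 : ℝ) 1, c s z * sliceLen g s z =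
      ∫⁻ p in cube, c (g p) (p 2) * ENNReal.ofReal (sqrt (pd g 0 p ^ 2 + pd g 1 p ^ 2)) := by
  have hs := hg.smooth
  have h0 := (Slice.continuous_pd hs 0).measurable
  have h1 := (Slice.continuous_pd hs 1).measurable
  have hv : Measurable fun p : R3 => ENNReal.ofReal (sqrt (pd g 0 p ^ 2 + pd g 1 p ^ 2) / -pd g 1 p) :=
    (((h0.pow_const 2).add (h1.pow_const 2)).sqrt.div h1.neg).ennreal_ofReal
  have hw : Measurable fun p : R3 => ENNReal.ofReal (sqrt (pd g 0 p ^ 2 + pd g 1 p ^ 2)) :=
    ((h0.pow_const 2).add (h1.pow_const 2)).sqrt.ennreal_ofReal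
  have hmp : Measurable fun p : R3 =>
      c (g p) (p 2) * ENNReal.ofReal (sqrt (pd g 0 p ^ 2 + pd g 1 p ^ 2)) :=
    (hc.comp (hs.continuous.measurable.prodMk (measurable_pi_apply 2))).mul hw
  have hm : Measurable fun q : ℝ × ℝ × ℝ =>
      (Ioo (g (pt q.2.2 1 q.2.1)) (g (pt q.2.2 0 q.2.1))).indicator (fun _ => c q.1 q.2.1 *
        ENNReal.ofReal (sqrt (pd g 0 (pt q.2.2 (lenY g q.1 q.2.2 q.2.1) q.2.1) ^ 2 +
            pd g 1 (pt q.2.2 (lenY g q.1 q.2.2 q.2.1) q.2.1) ^ 2) /
          -pd g 1 (pt q.2.2 (lenY g q.1 q.2.2 q.2.1) q.2.1))) q.1 := by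
    simp only [indicator_apply, mem_Ioo]
    refine Measurable.ite ((measurableSet_lt (Slice.measurable_g_pt hs measurable_snd.snd
      measurable_const measurable_snd.fst) measurable_fst).inter (measurableSet_lt measurable_fst
        (Slice.measurable_g_pt hs measurable_snd.snd measurable_const measurable_snd.fst))) ?_
      measurable_const
    exact (hc.comp (measurable_fst.prodMk measurable_snd.fst)).mul (hv.comp (Slice.measurable_pt
      measurable_snd.snd (Slice.measurable_width hs measurable_fst measurable_snd.snd
        measurable_snd.fst) measurable_snd.fst))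
  have e : ∀ s z, c s z * sliceLen g s z = ∫⁻ x in Icc (0 : ℝ) 1,
      (Ioo (g (pt x 1 z)) (g (pt x 0 z))).indicator (fun _ => c s z *
        ENNReal.ofReal (sqrt (pd g 0 (pt x (lenY g s x z) z) ^ 2 +
            pd g 1 (pt x (lenY g s x z) z) ^ 2) / -pd g 1 (pt x (lenY g s x z) z))) s := by
    intro s z
    have ha : Measurable fun x => g (pt x 1 z) :=
      Slice.measurable_g_pt hs measurable_id measurable_const measurable_const
    have hb : Measurable fun x => g (pt x 0 z) :=
      Slice.measurable_g_pt hs measurable_id measurable_const measurable_const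
    rw [sliceLen, setLIntegral_range (fun x => g (pt x 1 z)) (fun x => g (pt x 0 z)) ha hb,
      ← lintegral_const_mul _ ?_]
    · refine lintegral_congr fun x => ?_
      simp only [indicator_apply, mul_ite, mul_zero]
    · simp only [indicator_apply, mem_Ioo]
      exact Measurable.ite ((measurableSet_lt ha measurable_const).inter
        (measurableSet_lt measurable_const hb))
        (hv.comp (Slice.measurable_pt measurable_id
          (Slice.measurable_width hs measurable_const measurable_id measurable_const)
          measurable_const)) measurable_const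
  simp only [e]
  rw [lintegral_swap3 hm, Slice.lintegral_cube hmp]
  refine Eq.trans ?_ (Slice.rot3 (F := fun z x y => c (g (pt x y z)) z *
    ENNReal.ofReal (sqrt (pd g 0 (pt x y z) ^ 2 + pd g 1 (pt x y z) ^ 2)))
    (hmp.comp (Slice.measurable_pt measurable_snd.fst measurable_snd.snd measurable_fst)))
  refine setLIntegral_congr_fun measurableSet_Icc fun z hz => ?_
  refine setLIntegral_congr_fun measurableSet_Icc fun x hx => ?_
  calc _ = ∫⁻ t in Ioo (g (pt x 1 z)) (g (pt x 0 z)), c t z *
        ENNReal.ofReal (sqrt (pd g 0 (pt x (lenY g t x z) z) ^ 2 +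
            pd g 1 (pt x (lenY g t x z) z) ^ 2) / -pd g 1 (pt x (lenY g t x z) z)) := by
        rw [← lintegral_indicator measurableSet_Ioo]
        refine lintegral_congr fun t => ?_
        simp only [indicator_apply]
    _ = _ := lintegral_subst (F := fun y => g (pt x y z)) (F' := fun y => pd g 1 (pt x y z))
        (fun y _ => Slice.hasDerivAt_pt₁ hs x y z)
        (fun y hy => hg.neg _ (Slice.pt_mem_cube hx hy hz) 1) fun y t => c t z *
          ENNReal.ofReal (sqrt (pd g 0 (pt x y z) ^ 2 + pd g 1 (pt x y z) ^ 2) / -pd g 1 (pt x y z))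
    _ = _ := by
        refine setLIntegral_congr_fun measurableSet_Icc fun y hy => ?_
        have hy1 : 0 < -pd g 1 (pt x y z) := neg_pos.2 (hg.neg _ (Slice.pt_mem_cube hx hy hz) 1)
        rw [mul_left_comm, ← ENNReal.ofReal_mul hy1.le, mul_div_cancel₀ _ hy1.ne']

/-- The projection term at one level as an integral over the slice areas. -/
theorem lintegral_sliceArea_range (hg : Good g) {b : ℝ → ℝ} (hb : Measurable b) (s : ℝ) :
    ∫⁻ a in Icc (sliceArea g s 1) (sliceArea g s 0), ENNReal.ofReal (b a) =
      Slice.topInt g (fun z => b (sliceArea g s z)) s := by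
  simp only [← sliceArea_eq hg]
  rw [Slice.topInt_sliceArea hg.smooth hg.neg s hb]
  exact setLIntegral_congr Ioc_ae_eq_Icc.symm

/-- The weighted projection terms as an integral over the cube. -/
theorem lintegral_topInt_weighted (hg : Good g) {σ : ℝ → ℝ → ℝ}
    (hσ : Measurable (Function.uncurry σ)) {S : Set ℝ} (hS : MeasurableSet S) :
    ∫⁻ s in S, ∫⁻ a in Icc (sliceArea g s 1) (sliceArea g s 0), ENNReal.ofReal (σ s a) =
      ∫⁻ p in cube, ENNReal.ofReal (-pd g 2 p) *
        S.indicator (fun s => ENNReal.ofReal (σ s (sliceArea g s (p 2)))) (g p) := by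
  have hu : Measurable (Function.uncurry fun s (p : R3) =>
      S.indicator (fun s => ENNReal.ofReal (σ s (sliceArea g s (p 2)))) s) := by
    simp only [Function.uncurry_def]
    exact Measurable.ite (measurable_fst hS) (hσ.comp (measurable_fst.prodMk
      ((measurable_sliceArea' hg).comp (measurable_fst.prodMk
        ((measurable_pi_apply 2).comp measurable_snd))))).ennreal_ofReal measurable_const
  rw [← lintegral_levels hg hu, ← lintegral_indicator hS]
  refine lintegral_congr fun s => ?_
  by_cases hs : s ∈ S
  · simp only [indicator_of_mem hs]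
    rw [lintegral_sliceArea_range hg (b := σ s) (hσ.comp (measurable_prodMk_left (x := s))) s,
      Slice.topInt]
    refine lintegral_congr fun x => ?_
    rw [setLIntegral_range (fun y => g (pt x y 1)) (fun y => g (pt x y 0))
      (Slice.measurable_g_pt hg.smooth measurable_const measurable_id measurable_const)
      (Slice.measurable_g_pt hg.smooth measurable_const measurable_id measurable_const)]
    refine lintegral_congr fun y => ?_
    simp only [indicator_apply]
    rfl
  · simp [indicator_of_notMem hs]

/-- The calibrated slicing inequality. -/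
theorem stmtSlice : StmtSlice := by
  intro g hg w σ hw hσ hw0 hσ0 hcal
  have hs := hg.smooth
  have hmL : Measurable fun s => ∫⁻ z in Icc (0 : ℝ) 1, ENNReal.ofReal (w s z) * sliceLen g s z := by
    refine Measurable.lintegral_prod_right
      (f := fun s z => ENNReal.ofReal (w s z) * sliceLen g s z) (hw.ennreal_ofReal.mul ?_)
    have e : (fun q : ℝ × ℝ => sliceLen g q.1 q.2) = fun q => ∫⁻ x in Icc (0 : ℝ) 1,
        (Ioo (g (pt x 1 q.2)) (g (pt x 0 q.2))).indicator (fun _ => ENNReal.ofReal
          (sqrt (pd g 0 (pt x (lenY g q.1 x q.2) q.2) ^ 2 + pd g 1 (pt x (lenY g q.1 x q.2) q.2) ^ 2)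
            / -pd g 1 (pt x (lenY g q.1 x q.2) q.2))) q.1 := funext fun q =>
      setLIntegral_range (fun x => g (pt x 1 q.2)) (fun x => g (pt x 0 q.2))
        (Slice.measurable_g_pt hs measurable_id measurable_const measurable_const)
        (Slice.measurable_g_pt hs measurable_id measurable_const measurable_const) _ _
    show Measurable fun q : ℝ × ℝ => sliceLen g q.1 q.2
    rw [e]
    refine Measurable.lintegral_prod_right (f := fun (q : ℝ × ℝ) x =>
      (Ioo (g (pt x 1 q.2)) (g (pt x 0 q.2))).indicator (fun _ => ENNReal.ofReal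
          (sqrt (pd g 0 (pt x (lenY g q.1 x q.2) q.2) ^ 2 + pd g 1 (pt x (lenY g q.1 x q.2) q.2) ^ 2)
            / -pd g 1 (pt x (lenY g q.1 x q.2) q.2))) q.1) ?_
    simp only [Function.uncurry_def, indicator_apply, mem_Ioo]
    refine Measurable.ite ((measurableSet_lt (Slice.measurable_g_pt hs measurable_snd
      measurable_const measurable_fst.snd) measurable_fst.fst).inter (measurableSet_lt
        measurable_fst.fst (Slice.measurable_g_pt hs measurable_snd measurable_const
          measurable_fst.snd))) ?_ measurable_const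
    have h0 := (Slice.continuous_pd hs 0).measurable
    have h1 := (Slice.continuous_pd hs 1).measurable
    exact (((h0.pow_const 2).add (h1.pow_const 2)).sqrt.div h1.neg).ennreal_ofReal.comp
      (Slice.measurable_pt measurable_snd (Slice.measurable_width hs measurable_fst.fst
        measurable_snd measurable_fst.snd) measurable_fst.snd)
  have hmT : Measurable fun s =>
      ∫⁻ a in Icc (sliceArea g s 1) (sliceArea g s 0), ENNReal.ofReal (σ s a) := by
    simp only [← lintegral_indicator measurableSet_Icc, indicator_apply, mem_Icc]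
    refine Measurable.lintegral_prod_right (f := fun s a =>
      if sliceArea g s 1 ≤ a ∧ a ≤ sliceArea g s 0 then ENNReal.ofReal (σ s a) else 0) ?_
    exact Measurable.ite ((measurableSet_le ((measurable_sliceArea' hg).comp
      (measurable_fst.prodMk measurable_const)) measurable_snd).inter (measurableSet_le
        measurable_snd ((measurable_sliceArea' hg).comp (measurable_fst.prodMk measurable_const))))
      hσ.ennreal_ofReal measurable_const
  refine ae_le_of_forall_setLIntegral_le_of_sigmaFinite (hmL.add hmT) fun S hS _ => ?_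
  have hA : ∫⁻ s in S, levelArea g s =
      ∫⁻ p in cube, S.indicator 1 (g p) * ENNReal.ofReal (gradNorm g p) := by
    rw [stmtCoarea g hg _ (measurable_one.indicator hS), ← lintegral_indicator hS]
    refine lintegral_congr fun s => ?_
    by_cases hs : s ∈ S <;> simp [hs]
  have hL : ∫⁻ s in S, ∫⁻ z in Icc (0 : ℝ) 1, ENNReal.ofReal (w s z) * sliceLen g s z =
      ∫⁻ p in cube, S.indicator (fun s => ENNReal.ofReal (w s (p 2))) (g p) *
        ENNReal.ofReal (sqrt (pd g 0 p ^ 2 + pd g 1 p ^ 2)) := by
    rw [← lintegral_sliceLen_weighted hg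
      (c := fun s z => S.indicator (fun s => ENNReal.ofReal (w s z)) s) ?_,
      ← lintegral_indicator hS]
    · refine lintegral_congr fun s => ?_
      by_cases hs : s ∈ S
      · simp only [indicator_of_mem hs]
      · simp [indicator_of_notMem hs]
    · simp only [Function.uncurry_def]
      exact Measurable.ite (measurable_fst hS) hw.ennreal_ofReal measurable_const
  rw [lintegral_add_left hmL, hL, lintegral_topInt_weighted hg hσ hS, hA,
    ← lintegral_add_right _ ?_]
  · refine setLIntegral_mono' measurableSet_Icc fun p hp => ?_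
    by_cases hS' : g p ∈ S
    · simp only [indicator_of_mem hS', Pi.one_apply, one_mul]
      have hz : 0 ≤ -pd g 2 p := (neg_pos.2 (hg.neg p hp 2)).le
      rw [← ENNReal.ofReal_mul (hw0 _ _), ← ENNReal.ofReal_mul hz,
        ← ENNReal.ofReal_add (mul_nonneg (hw0 _ _) (sqrt_nonneg _)) (mul_nonneg hz (hσ0 _ _))]
      refine ENNReal.ofReal_le_ofReal ?_
      rw [gradNorm, Fin.sum_univ_three]
      set r := sqrt (pd g 0 p ^ 2 + pd g 1 p ^ 2)
      have hr : r ^ 2 = pd g 0 p ^ 2 + pd g 1 p ^ 2 := sq_sqrt (by positivity)
      have hc := hcal (g p) (p 2) ⟨hp.1 2, hp.2 2⟩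
      refine le_sqrt_of_sq_le ?_
      nlinarith [sq_nonneg (w (g p) (p 2) * pd g 2 p + σ (g p) (sliceArea g (g p) (p 2)) * r),
        mul_nonneg (sub_nonneg.2 hc) (by positivity : 0 ≤ r ^ 2 + pd g 2 p ^ 2)]
    · simp [indicator_of_notMem hS']
  · refine (Slice.continuous_pd hs 2).measurable.neg.ennreal_ofReal.mul ?_
    exact Measurable.ite (hs.continuous.measurable hS) (hσ.comp (hs.continuous.measurable.prodMk
      ((measurable_sliceArea' hg).comp (hs.continuous.measurable.prodMk
        (measurable_pi_apply 2))))).ennreal_ofReal measurable_const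

end Vale.Agent.P232
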