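import Vale.Agent.P232.Slice.Defs

/-!
# P232: coordinate changes and the reduction of `SmoothIso` to the inequality at each level

The cyclic change of coordinates and the point reflection preserve the class `Good`, the gradient
and the volume of the cube, hence, by the coarea formula, the areas of almost all levels. With the
reflection the levels of volume more than `1/2` are the complements of those of volume less than
`1/2`, and integrating the inequality at each level gives `SmoothIso`.
-/

open MeasureTheory Set Real Filter
open scoped ENNReal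

namespace Vale.Agent.P232

variable {g : R3 → ℝ}

/-! ## The two changes of variables on the cube -/

/-- The cyclic permutation of the coordinates used by `rot`. -/
def rotPt (p : R3) : R3 := pt (p 2) (p 0) (p 1)

theorem rot_eq_comp (g : R3 → ℝ) : rot g = g ∘ rotPt := rfl

theorem mem_cube_iff {p : R3} : p ∈ cube ↔ ∀ i, p i ∈ Icc (0 : ℝ) 1 := by
  simp [cube, Pi.le_def, forall_and]

theorem rotPt_mem_cube {p : R3} : rotPt p ∈ cube ↔ p ∈ cube := by
  simp [mem_cube_iff, Fin.forall_fin_succ, rotPt, pt]
  tauto

theorem one_sub_mem_cube {p : R3} : 1 - p ∈ cube ↔ p ∈ cube := by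
  simp [mem_cube_iff, and_comm]

theorem measurePreserving_rotPt : MeasurePreserving rotPt := by
  have h := volume_measurePreserving_piCongrLeft (fun _ : Fin 3 => ℝ) (finRotate 3)
  have e : rotPt = ⇑(MeasurableEquiv.piCongrLeft (fun _ : Fin 3 => ℝ) (finRotate 3)) := by
    funext p i
    fin_cases i <;>
    (simp [rotPt, pt, MeasurableEquiv.coe_piCongrLeft, Equiv.piCongrLeft_apply_eq_cast]; try congr)
  rw [e]
  exact h

theorem measurePreserving_one_sub : MeasurePreserving (fun p : R3 => 1 - p) :=
  volume.measurePreserving_sub_left 1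

theorem measurePreserving_restrict_cube {T : R3 → R3} (hT : MeasurePreserving T)
    (hmem : ∀ p, T p ∈ cube ↔ p ∈ cube) :
    MeasurePreserving T (volume.restrict cube) (volume.restrict cube) := by
  have h := hT.restrict_preimage (s := cube) measurableSet_Icc
  rwa [show T ⁻¹' cube = cube from Set.ext hmem] at h

/-! ## Derivatives -/

theorem pd_rot (hg : ContDiff ℝ 1 g) (p : R3) (i : Fin 3) :
    pd (rot g) i p = pd g (i + 1) (rotPt p) := by
  set L : R3 →L[ℝ] R3 := ContinuousLinearMap.pi fun j : Fin 3 =>
    ContinuousLinearMap.proj (![2, 0, 1] j) with hL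
  have e : rotPt = L := by
    funext q j
    fin_cases j <;> simp [hL, rotPt, pt]
  have h : HasFDerivAt (rot g) ((fderiv ℝ g (rotPt p)).comp L) p := by
    rw [rot_eq_comp, e]
    exact ((hg.differentiable one_ne_zero) (L p)).hasFDerivAt.comp p L.hasFDerivAt
  have hs : L (Pi.single i 1) = Pi.single (i + 1) 1 := by
    funext j
    rw [← e]
    fin_cases i <;> fin_cases j <;> simp [rotPt, pt]
  rw [pd, pd, h.fderiv, ContinuousLinearMap.comp_apply, hs]

theorem gradNorm_rot (hg : ContDiff ℝ 1 g) (p : R3) :
    gradNorm (rot g) p = gradNorm g (rotPt p) := by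
  unfold gradNorm
  congr 1
  simp only [pd_rot hg]
  exact Fintype.sum_equiv (Equiv.addRight 1) _ _ fun i => rfl

theorem pd_flipFun (hg : ContDiff ℝ 1 g) (p : R3) (i : Fin 3) :
    pd (flipFun g) i p = pd g i (1 - p) := by
  have h : HasFDerivAt (flipFun g)
      (-((fderiv ℝ g (1 - p)).comp (-ContinuousLinearMap.id ℝ R3))) p := by
    have h' := (hasFDerivAt_id (𝕜 := ℝ) p).const_sub (1 : R3)
    exact (((hg.differentiable one_ne_zero) (1 - p)).hasFDerivAt.comp p h').const_sub 1
  rw [pd, pd, h.fderiv]
  simp

theorem gradNorm_flipFun (hg : ContDiff ℝ 1 g) (p : R3) :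
    gradNorm (flipFun g) p = gradNorm g (1 - p) := by
  simp only [gradNorm, pd_flipFun hg]

theorem contDiff_rotPt : ContDiff ℝ 1 rotPt := by
  refine contDiff_pi.2 fun j => ?_
  fin_cases j <;> simp [rotPt, pt] <;> exact contDiff_apply ℝ ℝ _

/-! ## The classes are preserved -/

theorem Good.rot (hg : Good g) : Good (rot g) :=
  ⟨hg.smooth.comp contDiff_rotPt, fun p hp i => by
    rw [pd_rot hg.smooth]
    exact hg.neg _ (rotPt_mem_cube.2 hp) _⟩

theorem Good.flipFun (hg : Good g) : Good (flipFun g) :=
  ⟨contDiff_const.sub (hg.smooth.comp (contDiff_const.sub contDiff_id)), fun p hp i => by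
    rw [pd_flipFun hg.smooth]
    exact hg.neg _ (one_sub_mem_cube.2 hp) _⟩

theorem CubeSorted.flipFun (hg : CubeSorted g) : CubeSorted (flipFun g) := by
  intro p hp i j hij hle
  set q : R3 := 1 - p ∘ Equiv.swap i j with hq
  have hqc : q ∈ cube := by
    rw [hq, one_sub_mem_cube, mem_cube_iff]
    exact fun k => mem_cube_iff.1 hp _
  have h := hg q hqc i j hij (by simp [hq]; linarith)
  have he : q ∘ Equiv.swap i j = 1 - p := by
    funext k
    simp [hq]
  rw [he] at h
  show 1 - g (1 - p) ≤ 1 - g q
  linarith

/-! ## Level volumes -/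

theorem levelVol_rot (hg : Continuous g) (s : ℝ) : levelVol (rot g) s = levelVol g s := by
  unfold levelVol
  simp only [measureReal_def]
  congr 1
  have m : MeasurableSet {x : R3 | x ∈ cube ∧ s < g x} :=
    measurableSet_Icc.inter (measurableSet_lt measurable_const hg.measurable)
  rw [← measurePreserving_rotPt.measure_preimage m.nullMeasurableSet]
  congr 1
  ext p
  simp [rot_eq_comp, rotPt_mem_cube]

theorem volume_cube_eq_one : volume cube = 1 := by
  simp [cube, Real.volume_Icc_pi]

theorem levelVol_flipFun (hg : Continuous g) :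
    ∀ᵐ s : ℝ, levelVol (flipFun g) (1 - s) = 1 - levelVol g s := by
  have hc := Measure.countable_meas_level_set_pos (μ := volume.restrict cube) hg.measurable
  filter_upwards [hc.ae_notMem volume] with s hs
  have h0 : volume.restrict cube {x | g x = s} = 0 := by simpa using hs
  have m : MeasurableSet {x | g x < s} := measurableSet_lt hg.measurable measurable_const
  have h1 : levelVol (flipFun g) (1 - s) = (volume.restrict cube).real {x | g x < s} := by
    unfold levelVol
    rw [measureReal_def, measureReal_def,
      ← (measurePreserving_restrict_cube measurePreserving_one_sub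
        fun p => one_sub_mem_cube).measure_preimage m.nullMeasurableSet,
      Measure.restrict_apply (measurePreserving_one_sub.measurable m)]
    congr 2
    ext p
    simp [flipFun, and_comm]
  have m' : MeasurableSet {x | s < g x} := measurableSet_lt measurable_const hg.measurable
  have h2 : levelVol g s = (volume.restrict cube).real {x | s < g x} := by
    rw [measureReal_restrict_apply m', levelVol]
    congr 1
    ext p
    simp [and_comm]
  have : IsFiniteMeasure (volume.restrict cube) := ⟨by simp [volume_cube_eq_one]⟩
  have h3 : (volume.restrict cube).real {x | s < g x}ᶜ =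
      (volume.restrict cube).real {x | g x < s} := by
    refine measureReal_congr ?_
    refine ae_eq_set.2 ⟨measure_mono_null ?_ h0, measure_mono_null ?_ h0⟩
    · intro x hx
      simp only [Set.mem_sdiff, Set.mem_compl_iff, Set.mem_ofPred_eq, not_lt] at hx
      exact le_antisymm hx.1 hx.2
    · intro x hx
      simp only [Set.mem_sdiff, Set.mem_compl_iff, Set.mem_ofPred_eq, not_not] at hx
      exact absurd hx.1 (lt_asymm hx.2)
  rw [h1, h2, ← h3, measureReal_compl m']
  simp [measureReal_def, volume_cube_eq_one]

/-! ## Areas of almost all levels -/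

theorem measurable_gradNorm_smooth (hg : ContDiff ℝ 1 g) : Measurable (gradNorm g) := by
  have hc : ∀ i, Continuous (pd g i) := fun i =>
    (hg.continuous_fderiv one_ne_zero).clm_apply continuous_const
  exact (continuous_finsetSum _ fun i _ => (hc i).pow 2).sqrt.measurable

theorem measurable_levelArea (hg : ContDiff ℝ 1 g) : Measurable (levelArea g) := by
  have hpt : Continuous fun q : ℝ × ℝ × ℝ => g (pt q.1 q.2.1 q.2.2) := by
    refine hg.continuous.comp (continuous_pi fun i => ?_)
    fin_cases i <;> simp [pt] <;> fun_prop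
  have hG : ∀ {α : Type} [MeasurableSpace α] {x y z : α → ℝ}, Measurable x → Measurable y →
      Measurable z → Measurable fun a => pt (x a) (y a) (z a) := by
    intro α _ x y z hx hy hz
    refine measurable_pi_iff.2 fun i => ?_
    fin_cases i <;> simpa [pt]
  have hS : MeasurableSet {q : (ℝ × ℝ × ℝ) × ℝ |
      q.2 ∈ Icc (0 : ℝ) 1 ∧ q.1.1 < g (pt q.1.2.1 q.1.2.2 q.2)} :=
    (measurable_snd measurableSet_Icc).inter (measurableSet_lt measurable_fst.fst
      (hg.continuous.measurable.comp (hG measurable_fst.snd.fst measurable_fst.snd.snd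
        measurable_snd)))
  have hlen : Measurable fun q : ℝ × ℝ × ℝ => lenZ g q.1 q.2.1 q.2.2 :=
    (measurable_measure_prodMk_left (ν := volume) hS).ennreal_toReal
  have hP : Measurable fun q : ℝ × ℝ × ℝ => pt q.2.1 q.2.2 (lenZ g q.1 q.2.1 q.2.2) :=
    hG measurable_snd.fst measurable_snd.snd hlen
  have hc : ∀ i, Continuous (pd g i) := fun i =>
    (hg.continuous_fderiv one_ne_zero).clm_apply continuous_const
  set F : ℝ × ℝ × ℝ → ℝ≥0∞ := fun q =>
    {q : ℝ × ℝ × ℝ | q.2.2 ∈ Icc (0 : ℝ) 1 ∧
        g (pt q.2.1 q.2.2 1) < q.1 ∧ q.1 < g (pt q.2.1 q.2.2 0)}.indicator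
      (fun q => ENNReal.ofReal (gradNorm g (pt q.2.1 q.2.2 (lenZ g q.1 q.2.1 q.2.2)) /
        (-pd g 2 (pt q.2.1 q.2.2 (lenZ g q.1 q.2.1 q.2.2))))) q with hFdef
  have hF : Measurable F := by
    refine Measurable.indicator (((measurable_gradNorm_smooth hg).comp hP).div
      ((hc 2).measurable.comp hP).neg).ennreal_ofReal ?_
    exact (measurable_snd.snd measurableSet_Icc).inter
      ((measurableSet_lt (hg.continuous.measurable.comp
          (hG measurable_snd.fst measurable_snd.snd measurable_const)) measurable_fst).inter
        (measurableSet_lt measurable_fst (hg.continuous.measurable.comp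
          (hG measurable_snd.fst measurable_snd.snd measurable_const))))
  have e : levelArea g = fun s => ∫⁻ x in Icc (0 : ℝ) 1, ∫⁻ y, F (s, x, y) := by
    funext s
    unfold levelArea
    refine lintegral_congr fun x => ?_
    have mS : MeasurableSet {y : ℝ | y ∈ Icc (0 : ℝ) 1 ∧ g (pt x y 1) < s ∧ s < g (pt x y 0)} :=
      measurableSet_Icc.inter ((measurableSet_lt (hg.continuous.measurable.comp
          (hG measurable_const measurable_id measurable_const)) measurable_const).inter
        (measurableSet_lt measurable_const (hg.continuous.measurable.comp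
          (hG measurable_const measurable_id measurable_const))))
    rw [← lintegral_indicator mS]
    refine lintegral_congr fun y => ?_
    simp only [hFdef, Set.indicator_apply, Set.mem_ofPred_eq]
  rw [e]
  have h2 : Measurable (Function.uncurry fun s x => ∫⁻ y, F (s, x, y)) :=
    Measurable.lintegral_prod_right (f := fun (q : ℝ × ℝ) y => F (q.1, q.2, y))
      (hF.comp (measurable_fst.fst.prodMk (measurable_fst.snd.prodMk measurable_snd)))
  exact Measurable.lintegral_prod_right (f := fun s x => ∫⁻ y, F (s, x, y)) h2

/-- A change of variables preserving the cube and the gradient transports the areas of levels. -/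
theorem levelArea_eq_of_transport (hc : StmtCoarea) {g g' : R3 → ℝ} {T : R3 → R3} {φ : ℝ → ℝ}
    (hg : Good g) (hg' : Good g') (hT : MeasurePreserving T) (hmem : ∀ p, T p ∈ cube ↔ p ∈ cube)
    (hφ : MeasurePreserving φ) (hφ2 : Function.Involutive φ) (hval : ∀ p, g' p = φ (g (T p)))
    (hgrad : ∀ p, gradNorm g' p = gradNorm g (T p)) :
    ∀ᵐ s : ℝ, levelArea g' (φ s) = levelArea g s := by
  refine ae_eq_of_forall_setLIntegral_eq_of_sigmaFinite
    ((measurable_levelArea hg'.smooth).comp hφ.measurable) (measurable_levelArea hg.smooth)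
    fun S hS _ => ?_
  have key : ∀ h : ℝ → ℝ≥0∞, Measurable h →
      ∫⁻ s, h (φ s) * levelArea g' (φ s) = ∫⁻ s, h (φ s) * levelArea g s := by
    intro h hh
    rw [hφ.lintegral_comp (f := fun s => h s * levelArea g' s)
      (hh.mul (measurable_levelArea hg'.smooth)), ← hc g' hg' h hh,
      ← hc g hg (fun s => h (φ s)) (hh.comp hφ.measurable)]
    simp only [hval, hgrad]
    exact (measurePreserving_restrict_cube hT hmem).lintegral_comp
      (f := fun p => h (φ (g p)) * ENNReal.ofReal (gradNorm g p))
      ((hh.comp (hφ.measurable.comp hg.smooth.continuous.measurable)).mul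
        (measurable_gradNorm_smooth hg.smooth).ennreal_ofReal)
  have h := key (fun s => S.indicator 1 (φ s))
    ((measurable_one.indicator hS).comp hφ.measurable)
  simp only [hφ2 _] at h
  rw [← lintegral_indicator hS, ← lintegral_indicator hS]
  refine (lintegral_congr fun s => ?_).trans (h.trans (lintegral_congr fun s => ?_))
  · by_cases hs : s ∈ S <;> simp [hs]
  · by_cases hs : s ∈ S <;> simp [hs]

theorem levelArea_rot (hc : StmtCoarea) (hg : Good g) :
    ∀ᵐ s : ℝ, levelArea (rot g) s = levelArea g s :=
  levelArea_eq_of_transport hc hg hg.rot measurePreserving_rotPt (fun _ => rotPt_mem_cube)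
    (MeasurePreserving.id volume) (fun _ => rfl) (fun _ => rfl) (gradNorm_rot hg.smooth)

theorem levelArea_flipFun (hc : StmtCoarea) (hg : Good g) :
    ∀ᵐ s : ℝ, levelArea (flipFun g) (1 - s) = levelArea g s :=
  levelArea_eq_of_transport hc hg hg.flipFun measurePreserving_one_sub
    (fun _ => one_sub_mem_cube) (volume.measurePreserving_sub_left 1)
    (fun s => sub_sub_cancel 1 s) (fun _ => rfl) (gradNorm_flipFun hg.smooth)

/-! ## The reduction -/

theorem cubeCandidate_one_sub (v : ℝ) : cubeCandidate (1 - v) = cubeCandidate v := by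
  simp [cubeCandidate, candidate, min_comm]

theorem levelVol_mem_Icc (g : R3 → ℝ) (s : ℝ) : levelVol g s ∈ Icc (0 : ℝ) 1 := by
  refine ⟨measureReal_nonneg, ?_⟩
  refine (measureReal_mono (fun x hx => hx.1) (by simp [volume_cube_eq_one])).trans ?_
  simp [measureReal_def, volume_cube_eq_one]

theorem cubeCandidate_nonneg {v : ℝ} (hv : v ∈ Icc (0 : ℝ) 1) : 0 ≤ cubeCandidate v := by
  have hm : 0 ≤ min v (1 - v) := le_min hv.1 (sub_nonneg.2 hv.2)
  have := Real.pi_pos
  simp only [cubeCandidate, candidate]
  positivity

theorem measurable_cubeCandidate_levelVol (g : R3 → ℝ) :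
    Measurable fun s => cubeCandidate (levelVol g s) := by
  have hv : Antitone (levelVol g) := fun a b hab => by
    refine measureReal_mono (fun x hx => ⟨hx.1, hab.trans_lt hx.2⟩) ?_
    exact ne_top_of_le_ne_top (by simp [volume_cube_eq_one]) (measure_mono fun x hx => hx.1)
  have hc : Continuous cubeCandidate := by
    unfold cubeCandidate candidate
    refine Continuous.div_const (Continuous.min (Continuous.min ?_ (by fun_prop))
      continuous_const) 2
    exact continuous_const.mul ((continuous_id.min (continuous_const.sub continuous_id)).rpow_const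
      fun _ => Or.inr (by norm_num))
  exact hc.measurable.comp hv.measurable

/-- The inequality at almost every level gives the inequality in the cube. -/
theorem smoothIso_of_level (hc : StmtCoarea) (hl : StmtLevel) : SmoothIso := by
  intro g hsm hval hneg hsort
  have hg : Good g := ⟨hsm, hneg⟩
  have hflip : ∀ᵐ s : ℝ, levelVol (flipFun g) (1 - s) ≤ 1 / 2 →
      ENNReal.ofReal (cubeCandidate (levelVol (flipFun g) (1 - s))) ≤
        levelArea (flipFun g) (1 - s) :=
    (volume.measurePreserving_sub_left (1 : ℝ)).quasiMeasurePreserving.ae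
      (hl _ hg.flipFun hsort.flipFun)
  have hae : ∀ᵐ s : ℝ, ENNReal.ofReal (cubeCandidate (levelVol g s)) ≤ levelArea g s := by
    filter_upwards [hl g hg hsort, hflip, levelVol_flipFun hsm.continuous,
      levelArea_flipFun hc hg] with s h1 h2 hv ha
    rcases le_total (levelVol g s) (1 / 2) with h | h
    · exact h1 h
    · rw [← ha, ← cubeCandidate_one_sub, ← hv]
      exact h2 (by rw [hv]; linarith)
  have hm := measurable_cubeCandidate_levelVol g
  have hnn : ∀ t, 0 ≤ cubeCandidate (levelVol g t) := fun t =>
    cubeCandidate_nonneg (levelVol_mem_Icc g t)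
  have hcub : IsCompact cube := isCompact_Icc
  have hGc : Continuous (gradNorm g) := (continuous_finsetSum _ fun i _ =>
    (((hsm.continuous_fderiv one_ne_zero).clm_apply continuous_const :
      Continuous (pd g i))).pow 2).sqrt
  rw [intervalIntegral.integral_of_le zero_le_one,
    integral_eq_lintegral_of_nonneg_ae (Eventually.of_forall hnn) hm.aestronglyMeasurable,
    integral_eq_lintegral_of_nonneg_ae (f := gradNorm g)
      (Eventually.of_forall fun x => Real.sqrt_nonneg _) hGc.aestronglyMeasurable]
  have hfin : ∫⁻ x in cube, ENNReal.ofReal (gradNorm g x) ≠ ∞ :=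
    (hGc.continuousOn.integrableOn_compact hcub).lintegral_lt_top.ne
  refine ENNReal.toReal_mono hfin ?_
  calc ∫⁻ s in Ioc (0 : ℝ) 1, ENNReal.ofReal (cubeCandidate (levelVol g s))
      ≤ ∫⁻ s in Ioc (0 : ℝ) 1, levelArea g s :=
        lintegral_mono_ae (ae_restrict_of_ae hae)
    _ ≤ ∫⁻ s, levelArea g s := setLIntegral_le_lintegral _ _
    _ = ∫⁻ x in cube, ENNReal.ofReal (gradNorm g x) := by
        simpa using (hc g hg (fun _ => 1) measurable_const).symm

end Vale.Agent.P232
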