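import Vale.Agent.P232.Slice.Facts
import Vale.Agent.P232.Slice.Reduce

/-!
# P232: the inequality at almost every level, from slicing, slice bounds and one-dimensional bounds
-/

open MeasureTheory Set Real
open scoped ENNReal

namespace Vale.Agent.P232

variable {g : R3 → ℝ}

/-- The clipped ratio of the calibrating line to the slice bound. -/
noncomputable def wgt (c l : ℝ) (p : ℝ → ℝ) (a : ℝ) : ℝ := min 1 (max (c + l * a) 0 / p a)

theorem wgt_mem {c l : ℝ} {p : ℝ → ℝ} {a : ℝ} (hp : 0 ≤ p a) :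
    0 ≤ wgt c l p a ∧ wgt c l p a ≤ 1 :=
  ⟨le_min zero_le_one (div_nonneg (le_max_right _ _) hp), min_le_left _ _⟩

theorem sq_add_sqrt_one_sub {w : ℝ} (h0 : 0 ≤ w) (h1 : w ≤ 1) :
    w ^ 2 + sqrt (1 - w ^ 2) ^ 2 ≤ 1 := by
  have : w ^ 2 ≤ 1 := pow_le_one₀ h0 h1
  rw [sq_sqrt (sub_nonneg.2 this)]; linarith

theorem wgt_eq_of_le {c l : ℝ} {p : ℝ → ℝ} {a : ℝ} (hp : 0 ≤ p a) (h : c + l * a ≤ p a) :
    wgt c l p a = max (c + l * a) 0 / p a ∧ max (c + l * a) 0 = wgt c l p a * p a := by
  have hm : max (c + l * a) 0 ≤ p a := max_le h hp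
  have he : wgt c l p a = max (c + l * a) 0 / p a :=
    min_eq_right (div_le_one_of_le₀ hm hp)
  refine ⟨he, ?_⟩
  rcases hp.eq_or_lt with h0 | h0
  · rw [← h0] at hm ⊢
    simp [le_antisymm hm (le_max_right _ _)]
  · rw [he, div_mul_cancel₀ _ h0.ne']

theorem sig_eq_wgt {c l : ℝ} {p : ℝ → ℝ} {a : ℝ} (hp : 0 ≤ p a) (h : c + l * a ≤ p a) :
    sqrt (1 - wgt c l p a ^ 2) = sig c l p a := by
  rw [(wgt_eq_of_le hp h).1, sig]

/-- One calibrated point: the weighted slice length dominates the line. -/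
theorem line_le_weighted {c l a : ℝ} {p : ℝ → ℝ} {L : ℝ≥0∞} (hp : 0 ≤ p a)
    (h : c + l * a ≤ p a) (hL : ENNReal.ofReal (p a) ≤ L) :
    ENNReal.ofReal (max (c + l * a) 0) ≤ ENNReal.ofReal (wgt c l p a) * L := by
  rw [(wgt_eq_of_le hp h).2, ENNReal.ofReal_mul (wgt_mem hp).1]
  gcongr

theorem sig_max {c l a : ℝ} {p : ℝ → ℝ} (h : c + l * a ≤ p a) :
    sig c l p a = sig c l (fun b => max (p b) 0) a := by
  rcases le_total 0 (p a) with hp | hp
  · simp [sig, max_eq_left hp]
  · have : max (c + l * a) 0 = 0 := max_eq_right (h.trans hp)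
    simp [sig, this]

theorem ofReal_setIntegral_le_lintegral {s : Set ℝ} {f : ℝ → ℝ} (hs : MeasurableSet s)
    (hf : IntegrableOn f s) :
    ENNReal.ofReal (∫ x in s, f x) ≤ ∫⁻ x in s, ENNReal.ofReal (max (f x) 0) := by
  rw [← ofReal_integral_eq_lintegral_ofReal hf.pos_part
    (Filter.Eventually.of_forall fun x => le_max_right _ _)]
  exact ENNReal.ofReal_le_ofReal
    (setIntegral_mono_on hf hf.pos_part hs fun x _ => le_max_left _ _)

theorem measurable_levelVol (g : R3 → ℝ) : Measurable (levelVol g) := by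
  refine (Antitone.measurable fun s t hst => ?_)
  refine measureReal_mono (fun x hx => ⟨hx.1, lt_of_le_of_lt hst hx.2⟩) (ne_of_lt ?_)
  exact lt_of_le_of_lt (measure_mono fun x hx => hx.1) isCompact_Icc.measure_lt_top

theorem pC_nonneg {a : ℝ} (ha : 0 ≤ a) : 0 ≤ pC a :=
  le_min (sqrt_nonneg _) (le_min (by positivity) (by norm_num))

theorem pPre_nonneg {q a : ℝ} (hq : q ≤ 1) (ha : a ≤ 1) : 0 ≤ pPre q a := by
  unfold pPre
  split_ifs
  · exact add_nonneg (div_nonneg (by linarith) (by linarith))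
      (div_nonneg (mul_nonneg pi_pos.le (by linarith)) (by norm_num))
  · exact sqrt_nonneg _

theorem measurable_pC : Measurable pC := by unfold pC; fun_prop

theorem measurable_pPre : Measurable fun p : ℝ × ℝ => pPre p.1 p.2 := by
  unfold pPre
  exact Measurable.ite (measurableSet_le (by fun_prop) (by fun_prop)) (by fun_prop) (by fun_prop)

theorem measurable_pPost : Measurable fun p : ℝ × ℝ => pPost p.1 p.2 := by
  unfold pPost
  fun_prop

theorem tiltConst_zero : tiltConst 0 = 1 := by simp [tiltConst]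

theorem integral_sliceArea_split (hg : Good g) (s : ℝ) {d : ℝ} (hd : d ∈ Icc (0 : ℝ) 1) :
    levelVol g s = (∫ z in Ico (0 : ℝ) d, sliceArea g s z) + ∫ z in Icc d 1, sliceArea g s z := by
  have hi : IntegrableOn (sliceArea g s) (Icc (0 : ℝ) 1) :=
    ((antitoneOn_sliceArea hg s).integrableOn_isCompact isCompact_Icc)
  rw [levelVol_eq_integral hg s, ← setIntegral_union (by
    rw [Set.disjoint_left]; rintro x ⟨_, h1⟩ ⟨h2, _⟩; linarith) measurableSet_Icc
    (hi.mono_set fun x hx => ⟨hx.1, hx.2.le.trans hd.2⟩)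
    (hi.mono_set fun x hx => ⟨hd.1.trans hx.1, hx.2⟩), Ico_union_Icc_eq_Icc hd.1 hd.2]

/-- The volume lies between the extreme slice areas. -/
theorem levelVol_bounds (hg : Good g) (s : ℝ) :
    sliceArea g s 1 ≤ levelVol g s ∧ levelVol g s ≤ sliceArea g s 0 := by
  have hanti := antitoneOn_sliceArea hg s
  have hint : IntegrableOn (sliceArea g s) (Icc (0 : ℝ) 1) :=
    hanti.integrableOn_isCompact isCompact_Icc
  have h1 := setIntegral_mono_on (integrableOn_const (by simp)) hint measurableSet_Icc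
    (fun z hz => hanti hz (right_mem_Icc.2 zero_le_one) hz.2)
  have h0 := setIntegral_mono_on hint (integrableOn_const (by simp)) measurableSet_Icc
    (fun z hz => hanti (left_mem_Icc.2 zero_le_one) hz hz.1)
  exact ⟨by simpa [levelVol_eq_integral hg s] using h1,
    by simpa [levelVol_eq_integral hg s] using h0⟩

/-- The volume against the slice areas at `0`, `d` and `1`. -/
theorem levelVol_split_bounds (hg : Good g) (s : ℝ) {d : ℝ} (hd : d ∈ Icc (0 : ℝ) 1) :
    levelVol g s ≤ d * sliceArea g s 0 + (1 - d) * sliceArea g s d ∧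
      d * sliceArea g s d + (1 - d) * sliceArea g s 1 ≤ levelVol g s := by
  have hanti := antitoneOn_sliceArea hg s
  have hint : IntegrableOn (sliceArea g s) (Icc (0 : ℝ) 1) :=
    hanti.integrableOn_isCompact isCompact_Icc
  have hi₁ : IntegrableOn (sliceArea g s) (Ico (0 : ℝ) d) :=
    hint.mono_set fun x hx => ⟨hx.1, hx.2.le.trans hd.2⟩
  have hi₂ : IntegrableOn (sliceArea g s) (Icc d 1) :=
    hint.mono_set fun x hx => ⟨hd.1.trans hx.1, hx.2⟩
  have h01 : (0 : ℝ) ∈ Icc (0 : ℝ) 1 := left_mem_Icc.2 zero_le_one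
  have h11 : (1 : ℝ) ∈ Icc (0 : ℝ) 1 := right_mem_Icc.2 zero_le_one
  have e1 := setIntegral_mono_on hi₁ (integrableOn_const (by simp)) measurableSet_Ico
    (fun z hz => hanti h01 ⟨hz.1, hz.2.le.trans hd.2⟩ hz.1)
  have e2 := setIntegral_mono_on hi₂ (integrableOn_const (by simp)) measurableSet_Icc
    (fun z hz => hanti hd ⟨hd.1.trans hz.1, hz.2⟩ hz.1)
  have e3 := setIntegral_mono_on (integrableOn_const (by simp)) hi₁ measurableSet_Ico
    (fun z hz => hanti ⟨hz.1, hz.2.le.trans hd.2⟩ hd hz.2.le)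
  have e4 := setIntegral_mono_on (integrableOn_const (by simp)) hi₂ measurableSet_Icc
    (fun z hz => hanti ⟨hd.1.trans hz.1, hz.2⟩ h11 hz.2)
  simp [hd.1, hd.2] at e1 e2 e3 e4
  rw [integral_sliceArea_split hg s hd]
  exact ⟨by linarith, by linarith⟩

/-- Case C for given calibrations: the one-axis expression is at most the area of the level. -/
theorem level_caseC_bound (hs : StmtSlice) (hn : StmtPlanarNone) (h1 : StmtPlanarOne)
    (hb : StmtPlanarBoth) (h77 : 889 / 1000 ≤ tiltConst (77 / 100))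
    {c l : ℝ × ℝ × ℝ → ℝ} (hcm : Measurable c) (hlm : Measurable l)
    (hC : ∀ α β v : ℝ, 0 ≤ β → β ≤ v → v ≤ α → α ≤ 1 → v ≤ 1 / 2 →
      ∀ a ∈ Icc β α, c (α, β, v) + l (α, β, v) * a ≤ pC a)
    (hg : Good g) :
    ∀ᵐ s : ℝ, lenY g s 1 0 ≤ cut → lenX g s 1 0 ≤ cut → levelVol g s ≤ 1 / 2 →
      let P : ℝ × ℝ × ℝ := (sliceArea g s 0, sliceArea g s 1, levelVol g s)
      ENNReal.ofReal (c P + l P * levelVol g s +
        ∫ a in sliceArea g s 1..sliceArea g s 0, sig (c P) (l P) pC a) ≤ levelArea g s := by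
  set P : ℝ → ℝ × ℝ × ℝ := fun s => (sliceArea g s 0, sliceArea g s 1, levelVol g s) with hP
  have hA := measurable_sliceArea hg
  have hA' : ∀ z, Measurable fun s => sliceArea g s z := fun z =>
    hA.comp (measurable_id.prodMk measurable_const)
  have hPm : Measurable P := (hA' 0).prodMk ((hA' 1).prodMk (measurable_levelVol g))
  have hmain := hs g hg (fun s z => wgt (c (P s)) (l (P s)) pC (max (sliceArea g s z) 0))
    (fun s a => sqrt (1 - wgt (c (P s)) (l (P s)) pC (max a 0) ^ 2))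
    (by
      have := measurable_pC
      have hz : Measurable fun p : ℝ × ℝ => sliceArea g p.1 p.2 := hA
      simp only [Function.uncurry_def, wgt]; fun_prop)
    (by have := measurable_pC; simp only [Function.uncurry_def, wgt]; fun_prop)
    (fun s z => (wgt_mem (pC_nonneg (le_max_right _ _))).1) (fun s a => sqrt_nonneg _)
    (fun s z _ => sq_add_sqrt_one_sub (wgt_mem (pC_nonneg (le_max_right _ _))).1
      (wgt_mem (pC_nonneg (le_max_right _ _))).2)
  filter_upwards [hmain, hn g hg, h1 g hg (77 / 100) ⟨by norm_num, by norm_num⟩, hb g hg]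
    with s hs hn h1 hb hY hX hv
  intro Q
  have h01 : (0 : ℝ) ∈ Icc (0 : ℝ) 1 := by norm_num
  have h11 : (1 : ℝ) ∈ Icc (0 : ℝ) 1 := by norm_num
  have hanti := antitoneOn_sliceArea hg s
  have hint : IntegrableOn (sliceArea g s) (Icc (0 : ℝ) 1) :=
    hanti.integrableOn_isCompact isCompact_Icc
  obtain ⟨hvB, hvA⟩ := levelVol_bounds hg s
  have hle := hC _ _ _ (sliceArea_mem g s 1).1 hvB hvA (sliceArea_mem g s 0).2 hv
  rw [show Q = P s from rfl]
  set C := c (P s)
  set L := l (P s)
  refine le_trans ?_ hs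
  have hmem : ∀ z ∈ Icc (0 : ℝ) 1,
      sliceArea g s z ∈ Icc (sliceArea g s 1) (sliceArea g s 0) :=
    fun z hz => ⟨hanti hz h11 hz.2, hanti h01 hz hz.1⟩
  refine ENNReal.ofReal_add_le.trans (add_le_add ?_ ?_)
  · have hline : C + L * levelVol g s = ∫ z in Icc (0 : ℝ) 1, (C + L * sliceArea g s z) := by
      rw [integral_add (integrable_const _) (hint.const_mul L), integral_const_mul, ← levelVol_eq_integral hg s]
      simp
    rw [hline]
    refine (ofReal_setIntegral_le_lintegral measurableSet_Icc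
      ((integrableOn_const (by simp)).add (hint.const_mul L))).trans ?_
    refine lintegral_mono_ae ?_
    filter_upwards [hn, h1, hb, ae_restrict_mem measurableSet_Icc] with z hn h1 hb hz
    rw [max_eq_left (sliceArea_mem g s z).1]
    refine line_le_weighted (pC_nonneg (sliceArea_mem g s z).1) (hle _ (hmem z hz)) ?_
    have hq1 : lenY g s 1 z ≤ cut := (lenY_anti_z hg s (right_mem_Icc.2 zero_le_one) h01 hz hz.1).trans hY
    have hq2 : lenX g s 1 z ≤ cut := (lenX_anti_z hg s (right_mem_Icc.2 zero_le_one) h01 hz hz.1).trans hX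
    have hone : ∀ q ≤ cut, pC (sliceArea g s z) ≤
        77 / 100 * (sliceArea g s z - q) + tiltConst (77 / 100) := fun q hq => by
      refine (min_le_right _ _).trans ((min_le_left _ _).trans ?_)
      unfold cut at hq
      linarith
    rcases (lenY_mem g s 1 z).1.eq_or_lt with h | hY'
    · rcases (lenX_mem g s 1 z).1.eq_or_lt with h' | hX'
      · exact (ENNReal.ofReal_le_ofReal (min_le_left _ _)).trans (hn h.symm h'.symm)
      · exact (ENNReal.ofReal_le_ofReal (hone _ hq2)).trans (h1.2 hX' h.symm)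
    · rcases (lenX_mem g s 1 z).1.eq_or_lt with h' | hX'
      · exact (ENNReal.ofReal_le_ofReal (hone _ hq1)).trans (h1.1 hY' h'.symm)
      · refine (ENNReal.ofReal_le_ofReal ?_).trans (hb hY' hX').2.2.2
        refine (min_le_right _ _).trans ((min_le_right _ _).trans ?_)
        rw [le_div_iff₀ (sqrt_pos.2 two_pos)]
        unfold cut at hq1 hq2
        nlinarith [sqrt_nonneg (2 : ℝ), sq_sqrt (zero_le_two (α := ℝ))]
  · have hab : sliceArea g s 1 ≤ sliceArea g s 0 := hanti h01 h11 zero_le_one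
    rw [intervalIntegral.integral_of_le hab, ← integral_Icc_eq_integral_Ioc,
      ofReal_integral_eq_lintegral_ofReal ?_
        (Filter.Eventually.of_forall fun a => show 0 ≤ sig C L pC a from sqrt_nonneg _)]
    · refine lintegral_mono_ae ?_
      filter_upwards [ae_restrict_mem measurableSet_Icc] with a ha
      have h0 : 0 ≤ a := (sliceArea_mem g s 1).1.trans ha.1
      rw [max_eq_left h0, sig_eq_wgt (pC_nonneg h0) (hle a ha)]
    · refine Measure.integrableOn_of_bounded (M := 1) (by simp) ?_ ?_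
      · have := measurable_pC
        exact Measurable.aestronglyMeasurable (by unfold sig; fun_prop)
      · exact Filter.Eventually.of_forall fun a => by
          rw [Real.norm_eq_abs, abs_of_nonneg (by unfold sig; exact sqrt_nonneg _), sig]
          exact sqrt_le_one.2 (sub_le_self _ (sq_nonneg _))

set_option maxHeartbeats 1000000 in
/-- Case B for given calibrations: below the cut every slice touches both far edges. -/
theorem level_caseB_bound (hs : StmtSlice) (hn : StmtPlanarNone) (h1 : StmtPlanarOne)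
    (hb : StmtPlanarBoth) {c₁ c₂ l : ℝ × ℝ × ℝ × ℝ × ℝ → ℝ} (hc₁ : Measurable c₁)
    (hc₂ : Measurable c₂) (hl : Measurable l)
    (hB : ∀ α γ β q v : ℝ, 0 ≤ β → β ≤ γ → γ ≤ α → α ≤ 1 → 0 ≤ q → q ≤ γ → v ≤ 1 / 2 →
      v ≤ cut * α + (1 - cut) * γ → cut * γ + (1 - cut) * β ≤ v →
      (∀ a ∈ Icc γ α, c₁ (α, γ, β, q, v) + l (α, γ, β, q, v) * a ≤ pPre q a) ∧
      (∀ a ∈ Icc β γ, c₂ (α, γ, β, q, v) + l (α, γ, β, q, v) * a ≤ pPost q a))
    (hg : Good g) (hsort : CubeSorted g) :
    ∀ᵐ s : ℝ, cut < lenZ g s 0 1 → levelVol g s ≤ 1 / 2 →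
      let P : ℝ × ℝ × ℝ × ℝ × ℝ := (sliceArea g s 0, sliceArea g s cut, sliceArea g s 1,
        lenY g s 1 cut, levelVol g s)
      ENNReal.ofReal (cut * c₁ P + (1 - cut) * c₂ P + l P * levelVol g s +
          (∫ a in sliceArea g s cut..sliceArea g s 0, sig (c₁ P) (l P) (pPre (lenY g s 1 cut)) a) +
          ∫ a in sliceArea g s 1..sliceArea g s cut, sig (c₂ P) (l P) (pPost (lenY g s 1 cut)) a)
        ≤ levelArea g s := by
  have hA := measurable_sliceArea hg
  have hA' : ∀ z, Measurable fun s => sliceArea g s z := fun z =>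
    hA.comp (measurable_id.prodMk measurable_const)
  set P : ℝ → ℝ × ℝ × ℝ × ℝ × ℝ := fun s => (sliceArea g s 0, sliceArea g s cut,
    sliceArea g s 1, lenY g s 1 cut, levelVol g s) with hP
  have hPm : Measurable P := (hA' 0).prodMk ((hA' cut).prodMk ((hA' 1).prodMk
    ((measurable_lenY_level hg 1 cut).prodMk (measurable_levelVol g))))
  set p₁ : ℝ → ℝ → ℝ := fun s a => max (pPre (lenY g s 1 cut) a) 0 with hp₁
  set p₂ : ℝ → ℝ → ℝ := fun s a => max (pPost (lenY g s 1 cut) a) 0 with hp₂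
  set W₁ : ℝ → ℝ → ℝ := fun s a => wgt (c₁ (P s)) (l (P s)) (p₁ s) a with hW₁
  set W₂ : ℝ → ℝ → ℝ := fun s a => wgt (c₂ (P s)) (l (P s)) (p₂ s) a with hW₂
  have hq := measurable_lenY_level hg 1 cut
  have hp₁m : Measurable fun p : ℝ × ℝ => p₁ p.1 p.2 :=
    (measurable_pPre.comp ((hq.comp measurable_fst).prodMk measurable_snd)).max measurable_const
  have hp₂m : Measurable fun p : ℝ × ℝ => p₂ p.1 p.2 :=
    (measurable_pPost.comp ((hq.comp measurable_fst).prodMk measurable_snd)).max measurable_const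
  have hW₁m : Measurable fun p : ℝ × ℝ => W₁ p.1 p.2 := by simp only [hW₁, wgt]; fun_prop
  have hW₂m : Measurable fun p : ℝ × ℝ => W₂ p.1 p.2 := by simp only [hW₂, wgt]; fun_prop
  have hW₁01 : ∀ s a, 0 ≤ W₁ s a ∧ W₁ s a ≤ 1 := fun s a => wgt_mem (le_max_right _ _)
  have hW₂01 : ∀ s a, 0 ≤ W₂ s a ∧ W₂ s a ≤ 1 := fun s a => wgt_mem (le_max_right _ _)
  have hAp : Measurable fun p : ℝ × ℝ => sliceArea g p.1 p.2 := hA
  have hmain := hs g hg
    (fun s z => if z < cut then W₁ s (sliceArea g s z) else W₂ s (sliceArea g s z))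
    (fun s a => if sliceArea g s cut < a then sqrt (1 - W₁ s a ^ 2)
      else if a < sliceArea g s cut then sqrt (1 - W₂ s a ^ 2) else 0)
    (Measurable.ite (measurableSet_lt measurable_snd measurable_const)
      (hW₁m.comp (measurable_fst.prodMk hAp)) (hW₂m.comp (measurable_fst.prodMk hAp)))
    (Measurable.ite (measurableSet_lt ((hA' cut).comp measurable_fst) measurable_snd)
      ((hW₁m.pow_const 2).const_sub 1).sqrt
      (Measurable.ite (measurableSet_lt measurable_snd ((hA' cut).comp measurable_fst))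
        ((hW₂m.pow_const 2).const_sub 1).sqrt measurable_const))
    (fun s z => by split_ifs; exacts [(hW₁01 _ _).1, (hW₂01 _ _).1])
    (fun s a => by split_ifs; exacts [sqrt_nonneg _, sqrt_nonneg _, le_rfl])
    (fun s z hz => by
      have hcut : cut ∈ Icc (0 : ℝ) 1 := by unfold cut; norm_num
      have hw₁ := hW₁01 s (sliceArea g s z)
      have hw₂ := hW₂01 s (sliceArea g s z)
      split_ifs with h h2 h3 h4 h5
      · exact sq_add_sqrt_one_sub hw₁.1 hw₁.2
      · exact absurd h3 (not_lt.2 (antitoneOn_sliceArea hg s hz hcut h.le))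
      · simpa [abs_of_nonneg hw₁.1] using hw₁.2
      · exact absurd h4 (not_lt.2 (antitoneOn_sliceArea hg s hcut hz (not_lt.1 h)))
      · exact sq_add_sqrt_one_sub hw₂.1 hw₂.2
      · simpa [abs_of_nonneg hw₂.1] using hw₂.2)
  have hA0 := h1 g hg 0 ⟨le_rfl, zero_le_one⟩
  have hA3 := h1 g hg (3 / 10) ⟨by norm_num, by norm_num⟩
  filter_upwards [hmain, hn g hg, hA0, hA3, hb g hg] with s hs hn hA0 hA3 hb hcase hv
  intro Q
  have h01 : (0 : ℝ) ∈ Icc (0 : ℝ) 1 := by norm_num
  have h11 : (1 : ℝ) ∈ Icc (0 : ℝ) 1 := by norm_num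
  have hcut : cut ∈ Icc (0 : ℝ) 1 := by unfold cut; norm_num
  have hanti := antitoneOn_sliceArea hg s
  have hint : IntegrableOn (sliceArea g s) (Icc (0 : ℝ) 1) :=
    hanti.integrableOn_isCompact isCompact_Icc
  have hi₁ : IntegrableOn (sliceArea g s) (Ico (0 : ℝ) cut) :=
    hint.mono_set fun x hx => ⟨hx.1, hx.2.le.trans hcut.2⟩
  have hi₂ : IntegrableOn (sliceArea g s) (Icc cut 1) :=
    hint.mono_set fun x hx => ⟨hcut.1.trans hx.1, hx.2⟩
  have hsplit := integral_sliceArea_split hg s hcut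
  set α := sliceArea g s 0
  set γ := sliceArea g s cut
  set β := sliceArea g s 1
  set q := lenY g s 1 cut
  set v := levelVol g s
  have hm₁ : ∀ z ∈ Ico (0 : ℝ) cut, sliceArea g s z ∈ Icc γ α := fun z hz =>
    ⟨hanti ⟨hz.1, hz.2.le.trans hcut.2⟩ hcut hz.2.le,
      hanti h01 ⟨hz.1, hz.2.le.trans hcut.2⟩ hz.1⟩
  have hm₂ : ∀ z ∈ Icc cut 1, sliceArea g s z ∈ Icc β γ := fun z hz =>
    ⟨hanti ⟨hcut.1.trans hz.1, hz.2⟩ h11 hz.2, hanti hcut ⟨hcut.1.trans hz.1, hz.2⟩ hz.1⟩
  obtain ⟨hvA, hvB⟩ := levelVol_split_bounds hg s hcut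
  have hγα : γ ≤ α := hanti h01 hcut hcut.1
  have hβγ : β ≤ γ := hanti hcut h11 hcut.2
  rw [show Q = P s from rfl]
  obtain ⟨hle₁, hle₂⟩ := hB α γ β q v (sliceArea_mem g s 1).1 hβγ hγα
    (sliceArea_mem g s 0).2 (lenY_mem g s 1 cut).1 (lenY_le_sliceArea hg s hcut) hv hvA hvB
  have hP₁ : ∀ a ∈ Icc γ α, p₁ s a = pPre q a := fun a ha =>
    max_eq_left (pPre_nonneg (lenY_mem g s 1 cut).2 (ha.2.trans (sliceArea_mem g s 0).2))
  have hP₂ : ∀ a, pPost q a ≤ p₂ s a := fun a => le_max_left _ _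
  refine le_trans ?_ hs
  have hsum : cut * c₁ (P s) + (1 - cut) * c₂ (P s) + l (P s) * v +
        (∫ a in γ..α, sig (c₁ (P s)) (l (P s)) (pPre q) a) +
        (∫ a in β..γ, sig (c₂ (P s)) (l (P s)) (pPost q) a) =
      ((∫ z in Ico (0 : ℝ) cut, (c₁ (P s) + l (P s) * sliceArea g s z)) +
        ∫ z in Icc cut 1, (c₂ (P s) + l (P s) * sliceArea g s z)) +
      ((∫ a in Ioc γ α, sig (c₁ (P s)) (l (P s)) (pPre q) a) +
        ∫ a in Ioo β γ, sig (c₂ (P s)) (l (P s)) (pPost q) a) := by
    rw [integral_add (integrable_const _) (hi₁.const_mul _),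
      integral_add (integrable_const _) (hi₂.const_mul _), integral_const_mul, integral_const_mul,
      intervalIntegral.integral_of_le hγα, intervalIntegral.integral_of_le hβγ,
      integral_Ioc_eq_integral_Ioo (x := β)]
    simp [hcut.1, hcut.2]
    linear_combination l (P s) * hsplit
  refine le_trans (le_of_eq (congrArg ENNReal.ofReal hsum)) ?_
  refine ENNReal.ofReal_add_le.trans (add_le_add ?_ ?_)
  · refine ENNReal.ofReal_add_le.trans ?_
    have hu : Icc (0 : ℝ) 1 = Ico 0 cut ∪ Icc cut 1 := (Ico_union_Icc_eq_Icc hcut.1 hcut.2).symm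
    rw [hu, lintegral_union measurableSet_Icc (by
      rw [Set.disjoint_left]; rintro x ⟨_, h1⟩ ⟨h2, _⟩; linarith)]
    rw [hu, Measure.restrict_union (by
      rw [Set.disjoint_left]; rintro x ⟨_, h1⟩ ⟨h2, _⟩; linarith) measurableSet_Icc,
      ae_add_measure_iff] at hn hb hA0 hA3
    refine add_le_add ?_ ?_
    · refine (ofReal_setIntegral_le_lintegral measurableSet_Ico
        ((integrableOn_const (by simp)).add (hi₁.const_mul _))).trans ?_
      refine lintegral_mono_ae ?_
      filter_upwards [hb.1, ae_restrict_mem measurableSet_Ico] with z hb hz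
      rw [if_pos hz.2]
      have hz' : z ∈ Icc (0 : ℝ) 1 := ⟨hz.1, hz.2.le.trans hcut.2⟩
      have hpos := contacts_pos_below_cut hg hsort s hcase ⟨hz.1, hz.2.le⟩
      refine line_le_weighted (le_max_right _ _) ((hle₁ _ (hm₁ z hz)).trans (hP₁ _ (hm₁ z hz)).ge) ?_
      rw [hP₁ _ (hm₁ z hz)]
      unfold pPre
      split_ifs with hw
      · refine (ENNReal.ofReal_le_ofReal ?_).trans (hb hpos.1 hpos.2).1
        have hqz : q ≤ lenY g s 1 z := lenY_anti_z hg s (right_mem_Icc.2 zero_le_one) hz' hcut hz.2.le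
        rcases (lenY_mem g s 1 z).2.eq_or_lt with he | hlt
        · rw [he]
          have : sliceArea g s z = 1 := le_antisymm (sliceArea_mem g s z).2
            (he ▸ lenY_le_sliceArea hg s hz')
          rw [this] at hw ⊢
          have h4 : (1 - q) ^ 2 ≤ 0 := by
            by_contra hcon
            nlinarith [mul_pos pi_pos (not_le.1 hcon)]
          have : 1 - q = 0 := pow_eq_zero_iff two_ne_zero |>.1 (le_antisymm h4 (sq_nonneg _))
          simp [this]
        · have ha : 0 < 1 - lenY g s 1 z := by linarith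
          have hw0 : 0 < 1 - q := by linarith
          have key : (1 - sliceArea g s z) / (1 - lenY g s 1 z) - (1 - sliceArea g s z) / (1 - q) =
              (1 - sliceArea g s z) * (lenY g s 1 z - q) / ((1 - lenY g s 1 z) * (1 - q)) := by
            field_simp; ring
          have : π * (lenY g s 1 z - q) / 4 ≤
              (1 - sliceArea g s z) * (lenY g s 1 z - q) / ((1 - lenY g s 1 z) * (1 - q)) := by
            rw [div_le_div_iff₀ (by norm_num) (mul_pos ha hw0)]
            nlinarith [mul_le_mul_of_nonneg_left hw (sub_nonneg.2 hqz),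
              mul_nonneg (mul_nonneg pi_pos.le (sub_nonneg.2 hqz))
                (mul_nonneg hw0.le (sub_nonneg.2 hqz))]
          linarith
      · exact (hb hpos.1 hpos.2).2.2.1
    · refine (ofReal_setIntegral_le_lintegral measurableSet_Icc
        ((integrableOn_const (by simp)).add (hi₂.const_mul _))).trans ?_
      refine lintegral_mono_ae ?_
      filter_upwards [hn.2, hA0.2, hA3.2, hb.2, ae_restrict_mem measurableSet_Icc] with z hn h0 h3 hb hz
      rw [if_neg (not_lt.2 hz.1)]
      have hz' : z ∈ Icc (0 : ℝ) 1 := ⟨hcut.1.trans hz.1, hz.2⟩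
      refine line_le_weighted (le_max_right _ _) ((hle₂ _ (hm₂ z hz)).trans (hP₂ _)) ?_
      rw [ENNReal.ofReal_max, ENNReal.ofReal_zero, max_eq_left zero_le']
      have hq1 : lenY g s 1 z ≤ q := lenY_anti_z hg s (right_mem_Icc.2 zero_le_one) hcut hz' hz.1
      have hq2 : lenX g s 1 z ≤ q := (sorted_contact hsort s hz').trans hq1
      have hone : ∀ r ≤ q, ∀ L : ℝ≥0∞,
          ENNReal.ofReal (0 * (sliceArea g s z - r) + tiltConst 0) ≤ L →
          ENNReal.ofReal (3 / 10 * (sliceArea g s z - r) + tiltConst (3 / 10)) ≤ L →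
          ENNReal.ofReal (pPost q (sliceArea g s z)) ≤ L := fun r hr L ha hb => by
        refine (ENNReal.ofReal_le_ofReal ((min_le_right _ _).trans (min_le_left _ _))).trans ?_
        rw [ENNReal.ofReal_max, max_le_iff]
        refine ⟨by simpa [tiltConst_zero] using ha, (ENNReal.ofReal_le_ofReal ?_).trans hb⟩
        linarith
      rcases (lenY_mem g s 1 z).1.eq_or_lt with h | hY'
      · rcases (lenX_mem g s 1 z).1.eq_or_lt with h' | hX'
        · exact (ENNReal.ofReal_le_ofReal (min_le_left _ _)).trans (hn h.symm h'.symm)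
        · exact hone _ hq2 _ (h0.2 hX' h.symm) (h3.2 hX' h.symm)
      · rcases (lenX_mem g s 1 z).1.eq_or_lt with h' | hX'
        · exact hone _ hq1 _ (h0.1 hY' h'.symm) (h3.1 hY' h'.symm)
        · refine (ENNReal.ofReal_le_ofReal ((min_le_right _ _).trans (min_le_right _ _))).trans ?_
          rcases le_total (sqrt (π * (1 - sliceArea g s z))) (sqrt 2 * (1 - q)) with hh | hh
          · rw [max_eq_right hh]
            refine (ENNReal.ofReal_le_ofReal ?_).trans (hb hY' hX').2.2.2
            rw [le_div_iff₀ (sqrt_pos.2 two_pos)]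
            nlinarith [mul_self_sqrt (zero_le_two (α := ℝ))]
          · rw [max_eq_left hh]
            exact (hb hY' hX').2.2.1
  · refine ENNReal.ofReal_add_le.trans ?_
    have hsub : Ioo β γ ∪ Ioc γ α ⊆ Icc β α := union_subset
      (fun a ha => ⟨ha.1.le, ha.2.le.trans hγα⟩) (fun a ha => ⟨hβγ.trans ha.1.le, ha.2⟩)
    refine le_trans ?_ (lintegral_mono_set hsub)
    rw [lintegral_union measurableSet_Ioc (by
      rw [Set.disjoint_left]; rintro x ⟨_, h1⟩ ⟨h2, _⟩; linarith), add_comm]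
    have hbd : ∀ (c l : ℝ) (p : ℝ → ℝ), Measurable p → ∀ S : Set ℝ, volume S ≠ ⊤ →
        IntegrableOn (sig c l p) S := fun c l p hp S hS => by
      refine Measure.integrableOn_of_bounded (M := 1) hS
        (Measurable.aestronglyMeasurable (by unfold sig; fun_prop))
        (Filter.Eventually.of_forall fun a => ?_)
      rw [Real.norm_eq_abs, abs_of_nonneg (by unfold sig; exact sqrt_nonneg _), sig]
      exact sqrt_le_one.2 (sub_le_self _ (sq_nonneg _))
    refine add_le_add ?_ ?_
    · rw [ofReal_integral_eq_lintegral_ofReal (hbd _ _ _ (by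
        exact measurable_pPost.comp (by fun_prop : Measurable fun a : ℝ => (q, a))) _
          measure_Ioo_lt_top.ne) (Filter.Eventually.of_forall fun a => by unfold sig; exact sqrt_nonneg _)]
      refine lintegral_mono_ae ?_
      filter_upwards [ae_restrict_mem measurableSet_Ioo] with a ha
      rw [if_neg (not_lt.2 ha.2.le), if_pos ha.2]
      have hI : a ∈ Icc β γ := ⟨ha.1.le, ha.2.le⟩
      refine ENNReal.ofReal_le_ofReal (le_of_eq ?_)
      show _ = sqrt (1 - wgt (c₂ (P s)) (l (P s)) (p₂ s) a ^ 2)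
      rw [sig_eq_wgt (p := p₂ s) (le_max_right _ _) ((hle₂ a hI).trans (hP₂ a))]
      exact sig_max (hle₂ a hI)
    · rw [ofReal_integral_eq_lintegral_ofReal (hbd _ _ _ (by
        exact measurable_pPre.comp (by fun_prop : Measurable fun a : ℝ => (q, a))) _
          measure_Ioc_lt_top.ne) (Filter.Eventually.of_forall fun a => by unfold sig; exact sqrt_nonneg _)]
      refine lintegral_mono_ae ?_
      filter_upwards [ae_restrict_mem measurableSet_Ioc] with a ha
      rw [if_pos ha.1]
      have hI : a ∈ Icc γ α := ⟨ha.1.le, ha.2⟩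
      refine ENNReal.ofReal_le_ofReal (le_of_eq ?_)
      show _ = sqrt (1 - wgt (c₁ (P s)) (l (P s)) (p₁ s) a ^ 2)
      rw [sig_eq_wgt (p := p₁ s) (le_max_right _ _) ((hle₁ a hI).trans (hP₁ a hI).ge)]
      exact sig_max (hle₁ a hI)

/-- Case C: all contacts at most `cut`. -/
theorem level_caseC (hs : StmtSlice) (hn : StmtPlanarNone) (h1 : StmtPlanarOne)
    (hb : StmtPlanarBoth) (h77 : 889 / 1000 ≤ tiltConst (77 / 100)) (hC : StmtCaseC)
    (hg : Good g) :
    ∀ᵐ s : ℝ, lenY g s 1 0 ≤ cut → lenX g s 1 0 ≤ cut → levelVol g s ≤ 1 / 2 →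
      ENNReal.ofReal (cubeCandidate (levelVol g s)) ≤ levelArea g s := by
  obtain ⟨c, l, hcm, hlm, hC⟩ := hC
  filter_upwards [level_caseC_bound hs hn h1 hb h77 hcm hlm
    (fun α β v a b d e f => (hC α β v a b d e f).1) hg] with s h hY hX hv
  refine (ENNReal.ofReal_le_ofReal (hC _ _ _ (sliceArea_mem g s 1).1 ?_ ?_
    (sliceArea_mem g s 0).2 hv).2).trans (h hY hX hv)
  · exact (levelVol_bounds hg s).1
  · exact (levelVol_bounds hg s).2

/-- Case B: below the cut every slice touches both far edges. -/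
theorem level_caseB (hs : StmtSlice) (hn : StmtPlanarNone) (h1 : StmtPlanarOne)
    (hb : StmtPlanarBoth) (hB : StmtCaseB) (hg : Good g) (hsort : CubeSorted g) :
    ∀ᵐ s : ℝ, cut < lenZ g s 0 1 → levelVol g s ≤ 1 / 2 →
      ENNReal.ofReal (cubeCandidate (levelVol g s)) ≤ levelArea g s := by
  obtain ⟨c₁, c₂, l, hc₁, hc₂, hl, hB⟩ := hB
  filter_upwards [level_caseB_bound hs hn h1 hb hc₁ hc₂ hl
    (fun α γ β q v a b d e f k m n o =>
      ⟨(hB α γ β q v a b d e f k m n o).1, (hB α γ β q v a b d e f k m n o).2.1⟩) hg hsort]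
    with s h hcase hv
  have hcut : cut ∈ Icc (0 : ℝ) 1 := by unfold cut; norm_num
  refine (ENNReal.ofReal_le_ofReal (hB _ _ _ _ _ (sliceArea_mem g s 1).1
    (antitoneOn_sliceArea hg s hcut (right_mem_Icc.2 zero_le_one) hcut.2)
    (antitoneOn_sliceArea hg s (left_mem_Icc.2 zero_le_one) hcut hcut.1)
    (sliceArea_mem g s 0).2 (lenY_mem g s 1 cut).1 (lenY_le_sliceArea hg s hcut) hv
    (levelVol_split_bounds hg s hcut).1 (levelVol_split_bounds hg s hcut).2).2.2).trans (h hcase hv)

/-- The inequality at almost every level of a sorted function. -/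
theorem stmtLevel_of (hc : StmtCoarea) (hs : StmtSlice) (hn : StmtPlanarNone)
    (h1 : StmtPlanarOne) (hb : StmtPlanarBoth) (h77 : 889 / 1000 ≤ tiltConst (77 / 100))
    (hC : StmtCaseC) (hB : StmtCaseB) : StmtLevel := by
  intro g hg hsort
  filter_upwards [level_caseC hs hn h1 hb h77 hC (hg.rot),
    level_caseB hs hn h1 hb hB hg hsort, levelArea_rot hc hg] with s hC hB hrot hv
  rcases le_or_gt (lenZ g s 0 1) cut with h | h
  · rw [← hrot]
    have hv' : levelVol (rot g) s ≤ 1 / 2 := by rwa [levelVol_rot hg.smooth.continuous s]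
    have := hC ((lenY_rot_zero g s).le.trans h) ((lenX_rot_zero_le hsort s).trans h) hv'
    rwa [levelVol_rot hg.smooth.continuous s] at this
  · exact hB h hv

end Vale.Agent.P232
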