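import Vale.Agent.P232.Slice.Defs

/-!
# P232: lower bounds for the length of a level line in a slice

No derivative of the line is used. Against a weight of the level, an integral over the line weighted by
its slope is a double integral over the square, and so is the same weight along the other coordinate.
A field `(u, v)` of norm at most one then bounds the length by two one-variable integrals.
-/

open MeasureTheory Set Real
open scoped ENNReal

namespace Vale.Agent.P232.Planar

/-! ### One variable -/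

/-- The length of the superlevel set in the unit interval. -/
noncomputable def top (F : ℝ → ℝ) (t : ℝ) : ℝ := volume.real {r ∈ Icc (0 : ℝ) 1 | t < F r}

theorem vol_ne_top (F : ℝ → ℝ) (t : ℝ) : volume {r ∈ Icc (0 : ℝ) 1 | t < F r} ≠ ⊤ :=
  ((measure_mono fun _ h => h.1).trans_lt measure_Icc_lt_top).ne

theorem top_nonneg (F : ℝ → ℝ) (t : ℝ) : 0 ≤ top F t := measureReal_nonneg

theorem top_le_one (F : ℝ → ℝ) (t : ℝ) : top F t ≤ 1 :=
  (measureReal_mono (fun _ h => h.1) measure_Icc_lt_top.ne).trans (by simp)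

theorem top_mono {F F' : ℝ → ℝ} (t : ℝ) (h : ∀ r ∈ Icc (0 : ℝ) 1, F r ≤ F' r) : top F t ≤ top F' t :=
  measureReal_mono (fun r hr => ⟨hr.1, hr.2.trans_le (h r hr.1)⟩) (vol_ne_top F' t)

theorem measurable_top {α : Type*} [MeasurableSpace α] {F : α → ℝ → ℝ} {t : α → ℝ}
    (hF : Measurable (Function.uncurry F)) (ht : Measurable t) :
    Measurable fun a => top (F a) (t a) := by
  have h : MeasurableSet {p : α × ℝ | p.2 ∈ Icc (0 : ℝ) 1 ∧ t p.1 < F p.1 p.2} :=
    (measurable_snd measurableSet_Icc).inter (measurableSet_lt (ht.comp measurable_fst) hF)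
  exact (measurable_measure_prodMk_left (ν := volume) h).ennreal_toReal

section
variable {F : ℝ → ℝ} (hF : StrictAntiOn F (Icc 0 1))
include hF

theorem top_apply {x : ℝ} (hx : x ∈ Icc (0 : ℝ) 1) : top F (F x) = x := by
  have h : {r ∈ Icc (0 : ℝ) 1 | F x < F r} = Ico 0 x := by
    ext r
    exact ⟨fun ⟨hr, h⟩ => ⟨hr.1, (hF.lt_iff_gt hx hr).1 h⟩,
      fun ⟨h1, h2⟩ => ⟨⟨h1, h2.le.trans hx.2⟩, hF ⟨h1, h2.le.trans hx.2⟩ hx h2⟩⟩
  rw [top, h, Real.volume_real_Ico_of_le hx.1, sub_zero]

theorem top_le_of_le {x t : ℝ} (hx : x ∈ Icc (0 : ℝ) 1) (h : F x ≤ t) : top F t ≤ x := by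
  rw [← top_apply hF hx]
  exact measureReal_mono (fun r hr => ⟨hr.1, h.trans_lt hr.2⟩) (vol_ne_top F _)

theorem le_top_of_le {x t : ℝ} (hx : x ∈ Icc (0 : ℝ) 1) (h : t ≤ F x) : x ≤ top F t := by
  conv_lhs => rw [← top_apply hF hx]
  exact measureReal_mono (fun r hr => ⟨hr.1, h.trans_lt hr.2⟩) (vol_ne_top F _)

theorem lt_apply {x t : ℝ} (hx : x ∈ Icc (0 : ℝ) 1) (h : x < top F t) : t < F x :=
  lt_of_not_ge fun h' => absurd (top_le_of_le hF hx h') (not_le.2 h)

theorem apply_lt {x t : ℝ} (hx : x ∈ Icc (0 : ℝ) 1) (h : top F t < x) : F x < t :=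
  lt_of_not_ge fun h' => absurd (le_top_of_le hF hx h') (not_le.2 h)

end

theorem strictAnti_of_deriv {F F' : ℝ → ℝ} (hd : ∀ r ∈ Icc (0 : ℝ) 1, HasDerivAt F (F' r) r)
    (hn : ∀ r ∈ Icc (0 : ℝ) 1, F' r < 0) : StrictAntiOn F (Icc 0 1) :=
  strictAntiOn_of_hasDerivWithinAt_neg (convex_Icc 0 1)
    (fun r hr => (hd r hr).continuousAt.continuousWithinAt)
    (fun r hr => (hd r (interior_subset hr)).hasDerivWithinAt) (fun r hr => hn r (interior_subset hr))

/-- Change of variables from positions to levels. -/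
theorem lintegral_levels {F F' : ℝ → ℝ} (hd : ∀ r ∈ Icc (0 : ℝ) 1, HasDerivAt F (F' r) r)
    (hn : ∀ r ∈ Icc (0 : ℝ) 1, F' r < 0) (φ : ℝ → ℝ → ℝ≥0∞) :
    ∫⁻ t, (Ioo (F 1) (F 0)).indicator (fun t => φ (top F t) t) t =
      ∫⁻ r in Icc (0 : ℝ) 1, ENNReal.ofReal (-F' r) * φ r (F r) := by
  have hanti := strictAnti_of_deriv hd hn
  have hc : ContinuousOn F (Icc 0 1) := fun r hr => (hd r hr).continuousAt.continuousWithinAt
  rw [lintegral_indicator measurableSet_Ioo, setLIntegral_congr Ioo_ae_eq_Icc,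
    ← hc.image_Icc_of_antitoneOn zero_le_one hanti.antitoneOn,
    lintegral_image_eq_lintegral_abs_deriv_mul measurableSet_Icc
      (fun r hr => (hd r hr).hasDerivWithinAt) hanti.injOn]
  exact setLIntegral_congr_fun measurableSet_Icc fun r hr => by
    simp only [top_apply hanti hr, abs_of_neg (hn r hr)]

/-- Integral of a nonincreasing function which is `1` before `q` and `0` after `p`. -/
theorem integral_profile {f : ℝ → ℝ} (hf : AntitoneOn f (Icc 0 1)) {q p : ℝ} (hq : 0 ≤ q) (hqp : q ≤ p)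
    (hp : p ≤ 1) (h1 : ∀ x ∈ Ioo 0 q, f x = 1) (h0 : ∀ x ∈ Ioo p 1, f x = 0) :
    ∫ x in Icc (0 : ℝ) 1, f x = q + ∫ x in Ioo q p, f x := by
  have hi : ∀ a b, 0 ≤ a → a ≤ b → b ≤ 1 → IntervalIntegrable f volume a b := fun a b ha hab hb =>
    AntitoneOn.intervalIntegrable (hf.mono (by rw [uIcc_of_le hab]; exact Icc_subset_Icc ha hb))
  have e : ∀ a b, a ≤ b → ∫ x in a..b, f x = ∫ x in Ioo a b, f x := fun a b hab => by
    rw [intervalIntegral.integral_of_le hab, integral_Ioc_eq_integral_Ioo]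
  rw [integral_Icc_eq_integral_Ioo, ← e 0 1 zero_le_one,
    ← intervalIntegral.integral_add_adjacent_intervals (hi 0 q le_rfl hq (hqp.trans hp))
      (hi q 1 hq (hqp.trans hp) le_rfl),
    ← intervalIntegral.integral_add_adjacent_intervals (hi q p hq hqp hp) (hi p 1 (hq.trans hqp) hp le_rfl),
    e 0 q hq, e q p hqp, e p 1 hp, setIntegral_congr_fun measurableSet_Ioo h1,
    setIntegral_congr_fun measurableSet_Ioo h0, setIntegral_const, Real.volume_real_Ioo_of_le hq]
  simp

/-- The unit truncation. -/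
noncomputable def cl (a : ℝ) : ℝ := max 0 (min a 1)

/-- The component completing `cl` to a unit vector. -/
noncomputable def co (a : ℝ) : ℝ := sqrt (1 - cl a ^ 2)

theorem cl_nonneg (a : ℝ) : 0 ≤ cl a := le_max_left _ _

theorem cl_le_one (a : ℝ) : cl a ≤ 1 := max_le zero_le_one (min_le_right _ _)

theorem co_nonneg (a : ℝ) : 0 ≤ co a := sqrt_nonneg _

theorem cl_co (a : ℝ) : cl a ^ 2 + co a ^ 2 ≤ 1 := by
  rw [co, sq_sqrt (by nlinarith [cl_nonneg a, cl_le_one a])]; linarith

theorem co_cl (a : ℝ) : co a ^ 2 + cl a ^ 2 ≤ 1 := by linarith [cl_co a]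

theorem continuous_cl : Continuous cl := continuous_const.max (continuous_id.min continuous_const)

theorem continuous_co : Continuous co := (continuous_const.sub (continuous_cl.pow 2)).sqrt

theorem cl_of_mem {a : ℝ} (h0 : 0 ≤ a) (h1 : a ≤ 1) : cl a = a := by
  rw [cl, min_eq_left h1, max_eq_right h0]

/-! ### Two variables -/

/-- A function on the square with continuous negative partial derivatives. -/
structure Sq (G Gx Gy : ℝ → ℝ → ℝ) : Prop where
  cG : Continuous (Function.uncurry G)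
  cx : Continuous (Function.uncurry Gx)
  cy : Continuous (Function.uncurry Gy)
  dx : ∀ x ∈ Icc (0 : ℝ) 1, ∀ y ∈ Icc (0 : ℝ) 1, HasDerivAt (fun r => G r y) (Gx x y) x
  dy : ∀ x ∈ Icc (0 : ℝ) 1, ∀ y ∈ Icc (0 : ℝ) 1, HasDerivAt (G x) (Gy x y) y
  nx : ∀ x ∈ Icc (0 : ℝ) 1, ∀ y ∈ Icc (0 : ℝ) 1, Gx x y < 0
  ny : ∀ x ∈ Icc (0 : ℝ) 1, ∀ y ∈ Icc (0 : ℝ) 1, Gy x y < 0

/-- The height of the level over `x`. -/
noncomputable def hY (G : ℝ → ℝ → ℝ) (s x : ℝ) : ℝ := top (G x) s

/-- The width of the level at height `y`. -/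
noncomputable def hX (G : ℝ → ℝ → ℝ) (s y : ℝ) : ℝ := top (fun r => G r y) s

/-- The length of the level line. -/
noncomputable def len (G Gx Gy : ℝ → ℝ → ℝ) (s : ℝ) : ℝ≥0∞ :=
  ∫⁻ x in Icc (0 : ℝ) 1, (Ioo (G x 1) (G x 0)).indicator
    (fun t => ENNReal.ofReal (sqrt (Gx x (hY G t x) ^ 2 + Gy x (hY G t x) ^ 2) / (-Gy x (hY G t x)))) s

variable {G Gx Gy : ℝ → ℝ → ℝ}

theorem hY_mem (s x : ℝ) : hY G s x ∈ Icc (0 : ℝ) 1 := ⟨top_nonneg _ _, top_le_one _ _⟩

theorem hX_mem (s y : ℝ) : hX G s y ∈ Icc (0 : ℝ) 1 := ⟨top_nonneg _ _, top_le_one _ _⟩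

theorem Ioo_sub {a b : ℝ} (ha : a ∈ Icc (0 : ℝ) 1) (hb : b ∈ Icc (0 : ℝ) 1) {x : ℝ} (hx : x ∈ Ioo a b) :
    x ∈ Icc (0 : ℝ) 1 := ⟨ha.1.trans hx.1.le, hx.2.le.trans hb.2⟩

namespace Sq

variable (h : Sq G Gx Gy)
include h

theorem antiY {x : ℝ} (hx : x ∈ Icc (0 : ℝ) 1) : StrictAntiOn (G x) (Icc 0 1) :=
  strictAnti_of_deriv (h.dy x hx) (h.ny x hx)

theorem antiX {y : ℝ} (hy : y ∈ Icc (0 : ℝ) 1) : StrictAntiOn (fun r => G r y) (Icc 0 1) :=
  strictAnti_of_deriv (fun x hx => h.dx x hx y hy) fun x hx => h.nx x hx y hy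

theorem symm : Sq (fun a b => G b a) (fun a b => Gy b a) (fun a b => Gx b a) :=
  ⟨h.cG.comp continuous_swap, h.cy.comp continuous_swap, h.cx.comp continuous_swap,
    fun x hx y hy => h.dy y hy x hx, fun x hx y hy => h.dx y hy x hx,
    fun x hx y hy => h.ny y hy x hx, fun x hx y hy => h.nx y hy x hx⟩

theorem measurable_G {α : Type*} [MeasurableSpace α] {a b : α → ℝ} (ha : Measurable a) (hb : Measurable b) :
    Measurable fun c => G (a c) (b c) :=
  h.cG.measurable.comp (ha.prodMk hb)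

theorem measurable_hY {α : Type*} [MeasurableSpace α] {s x : α → ℝ} (hs : Measurable s) (hx : Measurable x) :
    Measurable fun c => hY G (s c) (x c) :=
  measurable_top (F := fun c => G (x c)) (h.measurable_G (hx.comp measurable_fst) measurable_snd) hs

theorem measurable_hX {α : Type*} [MeasurableSpace α] {s y : α → ℝ} (hs : Measurable s) (hy : Measurable y) :
    Measurable fun c => hX G (s c) (y c) :=
  h.symm.measurable_hY hs hy

theorem antitone_hY (s : ℝ) : AntitoneOn (hY G s) (Icc 0 1) := fun _ ha _ hb hab =>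
  top_mono s fun _ hr => (h.antiX hr).antitoneOn ha hb hab

theorem q_le_p (s : ℝ) : hX G s 1 ≤ hX G s 0 :=
  top_mono s fun _ hr => (h.antiY hr).antitoneOn (left_mem_Icc.2 zero_le_one) (right_mem_Icc.2 zero_le_one)
    zero_le_one

theorem hY_eq_one {s x : ℝ} (hx : x ∈ Icc (0 : ℝ) 1) (hq : x < hX G s 1) : hY G s x = 1 :=
  le_antisymm (top_le_one _ _) (le_top_of_le (h.antiY hx) (right_mem_Icc.2 zero_le_one)
    (lt_apply (h.antiX (right_mem_Icc.2 zero_le_one)) hx hq).le)

theorem hY_eq_zero {s x : ℝ} (hx : x ∈ Icc (0 : ℝ) 1) (hp : hX G s 0 < x) : hY G s x = 0 :=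
  le_antisymm (top_le_of_le (h.antiY hx) (left_mem_Icc.2 zero_le_one)
    (apply_lt (h.antiX (left_mem_Icc.2 zero_le_one)) hx hp).le) (top_nonneg _ _)

theorem hX_le {s y : ℝ} (hy : y ∈ Icc (0 : ℝ) 1) : hX G s y ≤ hX G s 0 :=
  h.symm.antitone_hY s (left_mem_Icc.2 zero_le_one) hy hy.1

theorem hY_le {s x : ℝ} (hx : x ∈ Icc (0 : ℝ) 1) : hY G s x ≤ hY G s 0 :=
  h.antitone_hY s (left_mem_Icc.2 zero_le_one) hx hx.1

theorem hY_ge {s x : ℝ} (hx : x ∈ Icc (0 : ℝ) 1) : hY G s 1 ≤ hY G s x :=
  h.antitone_hY s hx (right_mem_Icc.2 zero_le_one) hx.2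

theorem hX_ge {s y : ℝ} (hy : y ∈ Icc (0 : ℝ) 1) : hX G s 1 ≤ hX G s y :=
  h.symm.antitone_hY s hy (right_mem_Icc.2 zero_le_one) hy.2

/-- The area from the heights. -/
theorem area_eq (s : ℝ) :
    ∫ x in Icc (0 : ℝ) 1, hY G s x = hX G s 1 + ∫ x in Ioo (hX G s 1) (hX G s 0), hY G s x :=
  integral_profile (h.antitone_hY s) (hX_mem s 1).1 (h.q_le_p s) (hX_mem s 0).2
    (fun _ hx => h.hY_eq_one ⟨hx.1.le, hx.2.le.trans (hX_mem s 1).2⟩ hx.2)
    (fun _ hx => h.hY_eq_zero ⟨(hX_mem s 0).1.trans hx.1.le, hx.2.le⟩ hx.1)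

/-- Fubini for the area. -/
theorem area_symm (s : ℝ) :
    ∫ x in Icc (0 : ℝ) 1, hY G s x = ∫ y in Icc (0 : ℝ) 1, hX G s y := by
  set S := {p : ℝ × ℝ | p.1 ∈ Icc (0 : ℝ) 1 ∧ p.2 ∈ Icc (0 : ℝ) 1 ∧ s < G p.1 p.2}
  have hS : MeasurableSet S := (measurable_fst measurableSet_Icc).inter
    ((measurable_snd measurableSet_Icc).inter
      (measurableSet_lt measurable_const (h.measurable_G measurable_fst measurable_snd)))
  have e1 : (volume.prod volume) S = ∫⁻ x in Icc (0 : ℝ) 1, ENNReal.ofReal (hY G s x) := by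
    rw [Measure.prod_apply hS, ← lintegral_indicator measurableSet_Icc]
    refine lintegral_congr fun x => ?_
    by_cases hx : x ∈ Icc (0 : ℝ) 1
    · rw [indicator_of_mem hx, hY, top, ofReal_measureReal (vol_ne_top _ _)]
      congr 1; ext y; simp only [S, mem_preimage, mem_ofPred_eq, hx, true_and]
    · rw [indicator_of_notMem hx]
      exact (measure_mono_null (fun y hy => (hx hy.1).elim) (measure_empty (μ := volume)))
  have e2 : (volume.prod volume) S = ∫⁻ y in Icc (0 : ℝ) 1, ENNReal.ofReal (hX G s y) := by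
    rw [Measure.prod_apply_symm hS, ← lintegral_indicator measurableSet_Icc]
    refine lintegral_congr fun y => ?_
    by_cases hy : y ∈ Icc (0 : ℝ) 1
    · rw [indicator_of_mem hy, hX, top, ofReal_measureReal (vol_ne_top _ _)]
      congr 1; ext x; simp only [S, mem_preimage, mem_ofPred_eq, hy, true_and]
    · rw [indicator_of_notMem hy]
      exact (measure_mono_null (fun x hx => (hy hx.2.1).elim) (measure_empty (μ := volume)))
  rw [integral_eq_lintegral_of_nonneg_ae (Filter.Eventually.of_forall fun x => (hY_mem s x).1)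
      (h.measurable_hY measurable_const measurable_id).aestronglyMeasurable,
    integral_eq_lintegral_of_nonneg_ae (Filter.Eventually.of_forall fun y => (hX_mem s y).1)
      (h.measurable_hX measurable_const measurable_id).aestronglyMeasurable, ← e1, ← e2]

/-- The level line is over `(q, p)`, up to two points. -/
theorem lintegral_line (s : ℝ) (f : ℝ → ℝ → ℝ≥0∞) :
    ∫⁻ x in Icc (0 : ℝ) 1, (Ioo (G x 1) (G x 0)).indicator (f x) s =
      ∫⁻ x in Ioo (hX G s 1) (hX G s 0), f x s := by
  rw [← lintegral_indicator measurableSet_Icc, ← lintegral_indicator measurableSet_Ioo]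
  refine lintegral_congr_ae ?_
  filter_upwards [compl_mem_ae_iff.2 (((finite_singleton (hX G s 0)).insert (hX G s 1)).measure_zero volume)]
    with x hx
  simp only [mem_compl_iff, mem_insert_iff, mem_singleton_iff, not_or] at hx
  by_cases hI : x ∈ Icc (0 : ℝ) 1
  · rw [indicator_of_mem hI]
    by_cases hm : x ∈ Ioo (hX G s 1) (hX G s 0)
    · rw [indicator_of_mem hm, indicator_of_mem (show s ∈ Ioo (G x 1) (G x 0) from ⟨apply_lt (h.antiX (right_mem_Icc.2 zero_le_one)) hI hm.1,
        lt_apply (h.antiX (left_mem_Icc.2 zero_le_one)) hI hm.2⟩)]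
    · rw [indicator_of_notMem hm, indicator_of_notMem fun hm' => hm ⟨?_, ?_⟩]
      · exact lt_of_le_of_ne (top_le_of_le (h.antiX (right_mem_Icc.2 zero_le_one)) hI hm'.1.le) (Ne.symm hx.1)
      · exact lt_of_le_of_ne (le_top_of_le (h.antiX (left_mem_Icc.2 zero_le_one)) hI hm'.2.le) hx.2
  · rw [indicator_of_notMem hI, indicator_of_notMem fun hm => hI (Ioo_sub (hX_mem s 1) (hX_mem s 0) hm)]

theorem measurable_line {f : ℝ × ℝ → ℝ≥0∞} (hf : Measurable f) :
    Measurable fun a : ℝ × ℝ => (Ioo (G a.2 1) (G a.2 0)).indicator (fun t => f (t, a.2)) a.1 := by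
  have hS : MeasurableSet {a : ℝ × ℝ | G a.2 1 < a.1 ∧ a.1 < G a.2 0} :=
    (measurableSet_lt (h.measurable_G measurable_snd measurable_const) measurable_fst).inter
      (measurableSet_lt measurable_fst (h.measurable_G measurable_snd measurable_const))
  exact hf.indicator hS

theorem measurable_line_integral {f : ℝ × ℝ → ℝ≥0∞} (hf : Measurable f) :
    Measurable fun s => ∫⁻ x in Icc (0 : ℝ) 1, (Ioo (G x 1) (G x 0)).indicator (fun t => f (t, x)) s :=
  (h.measurable_line hf).lintegral_prod_right'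

/-- Coarea in the square, from the lines parallel to the second axis. -/
theorem integral_line {H : ℝ → ℝ → ℝ → ℝ≥0∞}
    (hH : Measurable fun a : ℝ × ℝ × ℝ => H a.1 a.2.1 a.2.2) :
    ∫⁻ s, ∫⁻ x in Icc (0 : ℝ) 1, (Ioo (G x 1) (G x 0)).indicator (fun t => H t x (hY G t x)) s =
      ∫⁻ x in Icc (0 : ℝ) 1, ∫⁻ y in Icc (0 : ℝ) 1, ENNReal.ofReal (-Gy x y) * H (G x y) x y := by
  rw [lintegral_lintegral_swap (h.measurable_line (f := fun a => H a.1 a.2 (hY G a.1 a.2))
    (hH.comp (measurable_fst.prodMk (measurable_snd.prodMk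
      (h.measurable_hY measurable_fst measurable_snd))))).aemeasurable]
  exact setLIntegral_congr_fun measurableSet_Icc fun x hx =>
    lintegral_levels (h.dy x hx) (h.ny x hx) fun y t => H t x y

/-- The slope-weighted integral along the line is an integral in the other coordinate. -/
theorem slope_swap {v : ℝ → ℝ → ℝ → ℝ≥0∞}
    (hv : Measurable fun a : ℝ × ℝ × ℝ => v a.1 a.2.1 a.2.2) :
    ∀ᵐ s : ℝ,
      ∫⁻ x in Icc (0 : ℝ) 1, (Ioo (G x 1) (G x 0)).indicator
          (fun t => ENNReal.ofReal (Gx x (hY G t x) / Gy x (hY G t x)) * v t x (hY G t x)) s =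
        ∫⁻ y in Icc (0 : ℝ) 1, (Ioo (G 1 y) (G 0 y)).indicator (fun t => v t (hX G t y) y) s := by
  have hq : Measurable fun a : ℝ × ℝ × ℝ => ENNReal.ofReal (Gx a.2.1 a.2.2 / Gy a.2.1 a.2.2) :=
    ((h.cx.measurable.comp measurable_snd).div (h.cy.measurable.comp measurable_snd)).ennreal_ofReal
  have hY' : Measurable fun a : ℝ × ℝ => (a.1, a.2, hY G a.1 a.2) :=
    measurable_fst.prodMk (measurable_snd.prodMk (h.measurable_hY measurable_fst measurable_snd))
  have hX' : Measurable fun a : ℝ × ℝ => (a.1, hX G a.1 a.2, a.2) :=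
    measurable_fst.prodMk ((h.measurable_hX measurable_fst measurable_snd).prodMk measurable_snd)
  refine ae_eq_of_forall_setLIntegral_eq_of_sigmaFinite
    (h.measurable_line_integral ((hq.mul hv).comp hY'))
    (h.symm.measurable_line_integral (hv.comp hX')) fun T hT _ => ?_
  have hw : Measurable fun a : ℝ × ℝ × ℝ => T.indicator (fun _ => (1 : ℝ≥0∞)) a.1 :=
    (measurable_one.indicator hT).comp measurable_fst
  have hswap : Measurable fun a : ℝ × ℝ × ℝ => (a.1, a.2.2, a.2.1) :=
    measurable_fst.prodMk (measurable_snd.snd.prodMk measurable_snd.fst)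
  have push : ∀ (a : ℝ → ℝ) (f : ℝ → ℝ → ℝ≥0∞) (lo hi : ℝ → ℝ) (s : ℝ),
      T.indicator (fun s => ∫⁻ x in Icc (0 : ℝ) 1, (Ioo (lo x) (hi x)).indicator (f x) s) s =
        ∫⁻ x in Icc (0 : ℝ) 1,
          (Ioo (lo x) (hi x)).indicator (fun t => T.indicator (fun _ => (1 : ℝ≥0∞)) t * f x t) s := by
    intro a f lo hi s
    by_cases hs : s ∈ T
    · rw [indicator_of_mem hs]
      refine lintegral_congr fun x => ?_
      by_cases hx : s ∈ Ioo (lo x) (hi x) <;> simp [hx, hs]
    · rw [indicator_of_notMem hs]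
      refine (lintegral_eq_zero_of_ae_eq_zero (Filter.Eventually.of_forall fun x => ?_)).symm
      by_cases hx : s ∈ Ioo (lo x) (hi x) <;> simp [hx, hs]
  rw [← lintegral_indicator hT, ← lintegral_indicator hT]
  simp only [push id]
  rw [h.integral_line (H := fun t x y => T.indicator (fun _ => (1 : ℝ≥0∞)) t *
      (ENNReal.ofReal (Gx x y / Gy x y) * v t x y)) (hw.mul (hq.mul hv))]
  refine Eq.trans ?_ (h.symm.integral_line
    (H := fun t y x => T.indicator (fun _ => (1 : ℝ≥0∞)) t * v t x y) (hw.mul (hv.comp hswap))).symm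
  have hm : Measurable fun a : ℝ × ℝ =>
      ENNReal.ofReal (-Gx a.1 a.2) * (T.indicator (fun _ => (1 : ℝ≥0∞)) (G a.1 a.2) * v (G a.1 a.2) a.1 a.2) :=
    h.cx.measurable.neg.ennreal_ofReal.mul
      (((measurable_one.indicator hT).comp h.cG.measurable).mul
        (hv.comp (h.cG.measurable.prodMk measurable_id)))
  refine (setLIntegral_congr_fun measurableSet_Icc fun x hx =>
    setLIntegral_congr_fun measurableSet_Icc fun y hy => ?_).trans (lintegral_lintegral_swap
      (f := fun x y => ENNReal.ofReal (-Gx x y) * (T.indicator (fun _ => (1 : ℝ≥0∞)) (G x y) * v (G x y) x y))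
      hm.aemeasurable)
  have hny := h.ny x hx y hy
  have e : ENNReal.ofReal (-Gy x y) * ENNReal.ofReal (Gx x y / Gy x y) = ENNReal.ofReal (-Gx x y) := by
    rw [← ENNReal.ofReal_mul (by linarith)]
    congr 1; rw [neg_mul, mul_div_cancel₀ _ hny.ne]
  rw [← e]; ring

/-- **Calibration of the level line** by a field of norm at most one. -/
theorem calib {u v : ℝ → ℝ → ℝ → ℝ} (hu : Measurable fun a : ℝ × ℝ × ℝ => u a.1 a.2.1 a.2.2)
    (hv : Measurable fun a : ℝ × ℝ × ℝ => v a.1 a.2.1 a.2.2) (hu0 : ∀ s x y, 0 ≤ u s x y)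
    (hv0 : ∀ s x y, 0 ≤ v s x y) (huv : ∀ s x y, u s x y ^ 2 + v s x y ^ 2 ≤ 1) :
    ∀ᵐ s : ℝ, ENNReal.ofReal ((∫ x in Ioo (hX G s 1) (hX G s 0), u s x (hY G s x)) +
      ∫ y in Ioo (hY G s 1) (hY G s 0), v s (hX G s y) y) ≤ len G Gx Gy s := by
  filter_upwards [h.slope_swap (v := fun s x y => ENNReal.ofReal (v s x y)) hv.ennreal_ofReal] with s hs
  have bd : ∀ {w : ℝ → ℝ} {a b : ℝ}, Measurable w → (∀ x, 0 ≤ w x) → (∀ x, w x ≤ 1) →
      IntegrableOn w (Ioo a b) := fun hw h0 h1 =>
    (integrableOn_const (C := (1 : ℝ)) measure_Ioo_lt_top.ne).mono' hw.aestronglyMeasurable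
      (Filter.Eventually.of_forall fun x => by rw [Real.norm_eq_abs, abs_of_nonneg (h0 x)]; exact h1 x)
  have iu : IntegrableOn (fun x => u s x (hY G s x)) (Ioo (hX G s 1) (hX G s 0)) :=
    bd (hu.comp (measurable_const.prodMk (measurable_id.prodMk (h.measurable_hY measurable_const measurable_id))))
      (fun x => hu0 _ _ _) fun x => by nlinarith [huv s x (hY G s x), sq_nonneg (v s x (hY G s x))]
  have iv : IntegrableOn (fun y => v s (hX G s y) y) (Ioo (hY G s 1) (hY G s 0)) :=
    bd (hv.comp (measurable_const.prodMk ((h.measurable_hX measurable_const measurable_id).prodMk measurable_id)))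
      (fun y => hv0 _ _ _) fun y => by nlinarith [huv s (hX G s y) y, sq_nonneg (u s (hX G s y) y)]
  rw [ENNReal.ofReal_add (integral_nonneg fun x => hu0 _ _ _) (integral_nonneg fun y => hv0 _ _ _),
    ofReal_integral_eq_lintegral_ofReal iu (Filter.Eventually.of_forall fun x => hu0 _ _ _),
    ofReal_integral_eq_lintegral_ofReal iv (Filter.Eventually.of_forall fun y => hv0 _ _ _),
    ← (show ∫⁻ y in Icc (0 : ℝ) 1, (Ioo (G 1 y) (G 0 y)).indicator
        (fun t => ENNReal.ofReal (v t (hX G t y) y)) s =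
      ∫⁻ y in Ioo (hY G s 1) (hY G s 0), ENNReal.ofReal (v s (hX G s y) y) from
      h.symm.lintegral_line s (fun y t => ENNReal.ofReal (v t (hX G t y) y))), ← hs,
    ← h.lintegral_line s (fun x t => ENNReal.ofReal (u t x (hY G t x))), len,
    ← lintegral_add_left' ?_]
  · refine setLIntegral_mono' measurableSet_Icc fun x hx => ?_
    by_cases hm : s ∈ Ioo (G x 1) (G x 0)
    · simp only [indicator_of_mem hm]
      have hy := hY_mem (G := G) s x
      have a0 := h.ny x hx _ hy
      have b0 := h.nx x hx _ hy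
      generalize hY G s x = y at *
      rw [← ENNReal.ofReal_mul (div_nonneg_of_nonpos b0.le a0.le),
        ← ENNReal.ofReal_add (hu0 _ _ _) (mul_nonneg (div_nonneg_of_nonpos b0.le a0.le) (hv0 _ _ _))]
      refine ENNReal.ofReal_le_ofReal ((le_div_iff₀ (by linarith)).2 ?_)
      have e : (u s x y + Gx x y / Gy x y * v s x y) * -Gy x y = u s x y * -Gy x y + v s x y * -Gx x y := by
        field_simp [a0.ne]
        ring
      rw [e]
      refine le_sqrt_of_sq_le ?_
      nlinarith [sq_nonneg (u s x y * -Gx x y - v s x y * -Gy x y),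
        mul_le_mul_of_nonneg_right (huv s x y) (add_nonneg (sq_nonneg (Gx x y)) (sq_nonneg (Gy x y)))]
    · simp [indicator_of_notMem hm]
  · exact ((h.measurable_line (f := fun a => ENNReal.ofReal (u a.1 a.2 (hY G a.1 a.2)))
      (hu.ennreal_ofReal.comp (measurable_fst.prodMk (measurable_snd.prodMk
        (h.measurable_hY measurable_fst measurable_snd))))).comp measurable_prodMk_left).aemeasurable

end Sq

/-! ### The four fields -/

theorem setIntegral_scale {a : ℝ} (ha : 0 ≤ a) {f : ℝ → ℝ} :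
    ∫ x in Ioo 0 a, f (x / a) = a * ∫ x in (0 : ℝ)..1, f x := by
  rcases ha.eq_or_lt with rfl | ha
  · simp
  · rw [← integral_Ioc_eq_integral_Ioo, ← intervalIntegral.integral_of_le ha.le,
      intervalIntegral.integral_comp_div _ ha.ne', zero_div, div_self ha.ne', smul_eq_mul]

theorem setIntegral_scale' {b : ℝ} (hb : b ≤ 1) {f : ℝ → ℝ} :
    ∫ x in Ioo b 1, f ((1 - x) / (1 - b)) = (1 - b) * ∫ x in (0 : ℝ)..1, f x := by
  rw [← setIntegral_scale (f := f) (sub_nonneg.2 hb), ← integral_Ioc_eq_integral_Ioo,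
    ← intervalIntegral.integral_of_le hb, ← integral_Ioc_eq_integral_Ioo,
    ← intervalIntegral.integral_of_le (sub_nonneg.2 hb),
    intervalIntegral.integral_comp_sub_left (fun x => f (x / (1 - b))) 1, sub_self]

theorem integral_quarter : ∫ x in (0 : ℝ)..1, co x = π / 4 := by
  have e : ∫ x in (0 : ℝ)..1, co x = ∫ x in (0 : ℝ)..1, √(1 - x ^ 2) :=
    intervalIntegral.integral_congr fun x hx => by
      rw [uIcc_of_le zero_le_one] at hx
      simp only [co, cl_of_mem hx.1 hx.2]
  have hi : ∀ a b, IntervalIntegrable (fun x : ℝ => √(1 - x ^ 2)) volume a b := fun a b =>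
    (by fun_prop : Continuous fun x : ℝ => √(1 - x ^ 2)).intervalIntegrable a b
  have h := intervalIntegral.integral_comp_neg (a := (0 : ℝ)) (b := 1) fun x : ℝ => √(1 - x ^ 2)
  simp only [neg_sq, neg_zero] at h
  have h2 := intervalIntegral.integral_add_adjacent_intervals (hi (-1) 0) (hi 0 1)
  rw [integral_sqrt_one_sub_sq, ← h] at h2
  linarith

theorem amgm {A a : ℝ} (hA : 0 ≤ A) (ha : 0 ≤ a) (h0 : a = 0 → A = 0) :
    sqrt (π * A) ≤ A / a + π * a / 4 := by
  rcases ha.eq_or_lt with h | h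
  · simp [h0 h.symm, ← h]
  · have e : 4 * (A / a * (π * a / 4)) = π * A := by field_simp
    refine sqrt_le_iff.2 ⟨by positivity, ?_⟩
    nlinarith [sq_nonneg (A / a - π * a / 4)]

variable (h : Sq G Gx Gy)
include h

/-- The area from the widths. -/
theorem area_eq' (s : ℝ) :
    ∫ x in Icc (0 : ℝ) 1, hY G s x = hY G s 1 + ∫ y in Ioo (hY G s 1) (hY G s 0), hX G s y := by
  rw [h.area_symm s]; exact h.symm.area_eq s

omit h in
theorem area_nonneg (s : ℝ) : 0 ≤ ∫ x in Icc (0 : ℝ) 1, hY G s x :=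
  setIntegral_nonneg measurableSet_Icc fun x _ => (hY_mem s x).1

theorem planar_none : ∀ᵐ s : ℝ, hY G s 1 = 0 → hX G s 1 = 0 →
    ENNReal.ofReal (sqrt (π * ∫ x in Icc (0 : ℝ) 1, hY G s x)) ≤ len G Gx Gy s := by
  have hp : Measurable fun s => hX G s 0 := h.measurable_hX measurable_id measurable_const
  filter_upwards [h.calib (u := fun s x _ => co (x / hX G s 0)) (v := fun s x _ => cl (x / hX G s 0))
    (continuous_co.measurable.comp (measurable_snd.fst.div (hp.comp measurable_fst)))
    (continuous_cl.measurable.comp (measurable_snd.fst.div (hp.comp measurable_fst)))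
    (fun _ _ _ => co_nonneg _) (fun _ _ _ => cl_nonneg _) (fun _ _ _ => co_cl _)] with s hs hr hq
  refine le_trans (ENNReal.ofReal_le_ofReal ?_) hs
  set p := hX G s 0 with hpd
  have hA : ∫ y in Ioo (hY G s 1) (hY G s 0), hX G s y = ∫ x in Icc (0 : ℝ) 1, hY G s x := by
    rw [area_eq' h s, hr, zero_add]
  have e2 : ∫ y in Ioo (hY G s 1) (hY G s 0), cl (hX G s y / p) = (∫ x in Icc (0 : ℝ) 1, hY G s x) / p := by
    rw [← hA, ← integral_div]
    exact setIntegral_congr_fun measurableSet_Ioo fun y hy => cl_of_mem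
      (div_nonneg (hX_mem s y).1 (hX_mem s 0).1)
      (div_le_one_of_le₀ (h.hX_le (Ioo_sub (hY_mem s 1) (hY_mem s 0) hy)) (hX_mem s 0).1)
  rw [e2, hq, setIntegral_scale (hX_mem s 0).1 (f := co), integral_quarter]
  refine (amgm (area_nonneg s) (hX_mem s 0).1 fun h0 => ?_).trans (le_of_eq (by ring))
  rw [h.area_eq s, hq, show hX G s 0 = 0 from h0]; simp

theorem planar_one {k : ℝ} (hk : k ∈ Icc (0 : ℝ) 1) : ∀ᵐ s : ℝ,
    (0 < hY G s 1 → hX G s 1 = 0 →
      ENNReal.ofReal (k * ((∫ x in Icc (0 : ℝ) 1, hY G s x) - hY G s 1) + tiltConst k) ≤ len G Gx Gy s) ∧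
    (0 < hX G s 1 → hY G s 1 = 0 →
      ENNReal.ofReal (k * ((∫ x in Icc (0 : ℝ) 1, hY G s x) - hX G s 1) + tiltConst k) ≤ len G Gx Gy s) := by
  have hcl : ∀ x ∈ Icc (0 : ℝ) 1, cl (k * x) = k * x := fun x hx =>
    cl_of_mem (mul_nonneg hk.1 hx.1) (mul_le_one₀ hk.2 hx.1 hx.2)
  have et : ∫ x in Ioo (0 : ℝ) 1, co (k * x) = tiltConst k := by
    rw [tiltConst, intervalIntegral.integral_of_le zero_le_one, integral_Ioc_eq_integral_Ioo]
    exact setIntegral_congr_fun measurableSet_Ioo fun x hx => by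
      rw [co, hcl x (Ioo_subset_Icc_self hx), mul_pow]
  filter_upwards [h.calib (u := fun _ x _ => co (k * x)) (v := fun _ x _ => cl (k * x))
      ((continuous_co.comp (continuous_const.mul continuous_id)).measurable.comp measurable_snd.fst)
      ((continuous_cl.comp (continuous_const.mul continuous_id)).measurable.comp measurable_snd.fst)
      (fun _ _ _ => co_nonneg _) (fun _ _ _ => cl_nonneg _) (fun _ _ _ => co_cl _),
    h.calib (u := fun _ _ y => cl (k * y)) (v := fun _ _ y => co (k * y))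
      ((continuous_cl.comp (continuous_const.mul continuous_id)).measurable.comp measurable_snd.snd)
      ((continuous_co.comp (continuous_const.mul continuous_id)).measurable.comp measurable_snd.snd)
      (fun _ _ _ => cl_nonneg _) (fun _ _ _ => co_nonneg _) (fun _ _ _ => cl_co _)] with s h1 h2
  refine ⟨fun hr hq => le_trans (le_of_eq (congrArg ENNReal.ofReal ?_)) h1,
    fun hq hr => le_trans (le_of_eq (congrArg ENNReal.ofReal ?_)) h2⟩
  · have hp : hX G s 0 = 1 := h.symm.hY_eq_one (left_mem_Icc.2 zero_le_one) hr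
    rw [hq, hp, et, area_eq' h s, add_sub_cancel_left, ← integral_const_mul, add_comm]
    refine congrArg _ (setIntegral_congr_fun measurableSet_Ioo fun y _ => (hcl _ (hX_mem s y)).symm)
  · have hY0 : hY G s 0 = 1 := h.hY_eq_one (left_mem_Icc.2 zero_le_one) hq
    rw [hr, hY0, et, h.area_eq s, add_sub_cancel_left, ← integral_const_mul]
    refine congrArg (· + _) (setIntegral_congr_fun measurableSet_Ioo fun x _ => (hcl _ (hY_mem s x)).symm)

theorem planar_both : ∀ᵐ s : ℝ, 0 < hY G s 1 → 0 < hX G s 1 →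
    ENNReal.ofReal ((1 - ∫ x in Icc (0 : ℝ) 1, hY G s x) / (1 - hY G s 1) + π * (1 - hY G s 1) / 4)
        ≤ len G Gx Gy s ∧
    ENNReal.ofReal ((1 - ∫ x in Icc (0 : ℝ) 1, hY G s x) / (1 - hX G s 1) + π * (1 - hX G s 1) / 4)
        ≤ len G Gx Gy s ∧
    ENNReal.ofReal (sqrt (π * (1 - ∫ x in Icc (0 : ℝ) 1, hY G s x))) ≤ len G Gx Gy s ∧
    ENNReal.ofReal (((1 - hY G s 1) + (1 - hX G s 1)) / sqrt 2) ≤ len G Gx Gy s := by
  have hr' : Measurable fun s => hY G s 1 := h.measurable_hY measurable_id measurable_const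
  have hq' : Measurable fun s => hX G s 1 := h.measurable_hX measurable_id measurable_const
  have hs2 : (1 / sqrt 2) ^ 2 + (1 / sqrt 2) ^ 2 ≤ (1 : ℝ) := by
    rw [div_pow, one_pow, sq_sqrt zero_le_two]; norm_num
  filter_upwards [
    h.calib (u := fun s _ y => cl ((1 - y) / (1 - hY G s 1))) (v := fun s _ y => co ((1 - y) / (1 - hY G s 1)))
      (continuous_cl.measurable.comp
        ((measurable_const.sub measurable_snd.snd).div (measurable_const.sub (hr'.comp measurable_fst))))
      (continuous_co.measurable.comp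
        ((measurable_const.sub measurable_snd.snd).div (measurable_const.sub (hr'.comp measurable_fst))))
      (fun _ _ _ => cl_nonneg _) (fun _ _ _ => co_nonneg _) (fun _ _ _ => cl_co _),
    h.calib (u := fun s x _ => co ((1 - x) / (1 - hX G s 1))) (v := fun s x _ => cl ((1 - x) / (1 - hX G s 1)))
      (continuous_co.measurable.comp
        ((measurable_const.sub measurable_snd.fst).div (measurable_const.sub (hq'.comp measurable_fst))))
      (continuous_cl.measurable.comp
        ((measurable_const.sub measurable_snd.fst).div (measurable_const.sub (hq'.comp measurable_fst))))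
      (fun _ _ _ => co_nonneg _) (fun _ _ _ => cl_nonneg _) (fun _ _ _ => co_cl _),
    h.calib (u := fun _ _ _ => 1 / sqrt 2) (v := fun _ _ _ => 1 / sqrt 2) measurable_const measurable_const
      (fun _ _ _ => by positivity) (fun _ _ _ => by positivity) (fun _ _ _ => hs2)] with s h1 h2 h3 hr hq
  have hp : hX G s 0 = 1 := h.symm.hY_eq_one (left_mem_Icc.2 zero_le_one) hr
  have hY0 : hY G s 0 = 1 := h.hY_eq_one (left_mem_Icc.2 zero_le_one) hq
  have q1 := (hX_mem (G := G) s 1).2
  have r1 := (hY_mem (G := G) s 1).2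
  rw [hp, hY0] at h1 h2 h3
  set A := ∫ x in Icc (0 : ℝ) 1, hY G s x with hA
  have intY : IntegrableOn (hY G s) (Ioo (hX G s 1) 1) :=
    ((h.antitone_hY s).integrableOn_isCompact isCompact_Icc).mono_set fun x hx =>
      ⟨(hX_mem s 1).1.trans hx.1.le, hx.2.le⟩
  have intX : IntegrableOn (hX G s) (Ioo (hY G s 1) 1) :=
    ((h.symm.antitone_hY s).integrableOn_isCompact isCompact_Icc).mono_set fun x hx =>
      ⟨(hY_mem s 1).1.trans hx.1.le, hx.2.le⟩
  have aY : ∫ x in Ioo (hX G s 1) 1, hY G s x = A - hX G s 1 := by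
    rw [hA, h.area_eq s, hp, add_sub_cancel_left]
  have aX : ∫ y in Ioo (hY G s 1) 1, hX G s y = A - hY G s 1 := by
    rw [hA, area_eq' h s, hY0, add_sub_cancel_left]
  have g1 : (1 - A) / (1 - hY G s 1) + π * (1 - hY G s 1) / 4 ≤
      (∫ x in Ioo (hX G s 1) 1, cl ((1 - hY G s x) / (1 - hY G s 1))) +
        ∫ y in Ioo (hY G s 1) 1, co ((1 - y) / (1 - hY G s 1)) := by
    rw [setIntegral_scale' r1 (f := co), integral_quarter,
      setIntegral_congr_fun measurableSet_Ioo fun x hx => cl_of_mem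
        (div_nonneg (sub_nonneg.2 (hY_mem s x).2) (sub_nonneg.2 r1))
        (div_le_one_of_le₀ (sub_le_sub_left (h.hY_ge ⟨(hX_mem s 1).1.trans hx.1.le, hx.2.le⟩) 1)
          (sub_nonneg.2 r1)),
      integral_div, integral_sub (integrableOn_const (C := (1 : ℝ)) measure_Ioo_lt_top.ne).integrable intY.integrable, aY, setIntegral_const,
      Real.volume_real_Ioo_of_le q1, smul_eq_mul, mul_one, sub_sub_sub_cancel_right]
    exact le_of_eq (by ring)
  have g2 : (1 - A) / (1 - hX G s 1) + π * (1 - hX G s 1) / 4 ≤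
      (∫ x in Ioo (hX G s 1) 1, co ((1 - x) / (1 - hX G s 1))) +
        ∫ y in Ioo (hY G s 1) 1, cl ((1 - hX G s y) / (1 - hX G s 1)) := by
    rw [setIntegral_scale' q1 (f := co), integral_quarter,
      setIntegral_congr_fun measurableSet_Ioo fun y hy => cl_of_mem
        (div_nonneg (sub_nonneg.2 (hX_mem s y).2) (sub_nonneg.2 q1))
        (div_le_one_of_le₀ (sub_le_sub_left (h.hX_ge ⟨(hY_mem s 1).1.trans hy.1.le, hy.2.le⟩) 1)
          (sub_nonneg.2 q1)),
      integral_div, integral_sub (integrableOn_const (C := (1 : ℝ)) measure_Ioo_lt_top.ne).integrable intX.integrable, aX, setIntegral_const,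
      Real.volume_real_Ioo_of_le r1, smul_eq_mul, mul_one, sub_sub_sub_cancel_right]
    exact le_of_eq (by ring)
  refine ⟨le_trans (ENNReal.ofReal_le_ofReal g1) h1, le_trans (ENNReal.ofReal_le_ofReal g2) h2,
    le_trans (ENNReal.ofReal_le_ofReal ((amgm ?_ (sub_nonneg.2 r1) ?_).trans g1)) h1,
    le_trans (le_of_eq (congrArg ENNReal.ofReal ?_)) h3⟩
  · have hm : ∫ x in Ioo (hX G s 1) 1, hY G s x ≤ ∫ _ in Ioo (hX G s 1) 1, (1 : ℝ) :=
      setIntegral_mono intY (integrableOn_const (C := (1 : ℝ)) measure_Ioo_lt_top.ne) fun x => (hY_mem s x).2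
    rw [aY, setIntegral_const, Real.volume_real_Ioo_of_le q1, smul_eq_mul, mul_one] at hm
    linarith
  · intro h0
    have hr1 : hY G s 1 = 1 := by linarith
    rw [hr1, Ioo_self, setIntegral_empty] at aX
    linarith
  · rw [setIntegral_const, setIntegral_const, Real.volume_real_Ioo_of_le q1,
      Real.volume_real_Ioo_of_le r1, smul_eq_mul, smul_eq_mul]
    ring

end Vale.Agent.P232.Planar

namespace Vale.Agent.P232

open Planar

variable {g : R3 → ℝ}

theorem continuous_pt_fin : Continuous fun a : ℝ × ℝ × ℝ => pt a.1 a.2.1 a.2.2 := by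
  refine continuous_pi fun i => ?_
  fin_cases i <;> simp [pt] <;> fun_prop

theorem Good.cont_pd (hg : Good g) (i : Fin 3) : Continuous (pd g i) :=
  (hg.smooth.continuous_fderiv one_ne_zero).clm_apply continuous_const

/-- A horizontal slice. -/
theorem Good.planarSq (hg : Good g) {z : ℝ} (hz : z ∈ Icc (0 : ℝ) 1) :
    Sq (fun x y => g (pt x y z)) (fun x y => pd g 0 (pt x y z)) (fun x y => pd g 1 (pt x y z)) := by
  have hc : Continuous fun a : ℝ × ℝ => pt a.1 a.2 z :=
    continuous_pt_fin.comp (continuous_fst.prodMk (continuous_snd.prodMk continuous_const))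
  have hm : ∀ x ∈ Icc (0 : ℝ) 1, ∀ y ∈ Icc (0 : ℝ) 1, pt x y z ∈ cube := fun x hx y hy => by
    refine ⟨fun i => ?_, fun i => ?_⟩ <;> fin_cases i <;> simp [pt, hx.1, hx.2, hy.1, hy.2, hz.1, hz.2]
  refine ⟨hg.smooth.continuous.comp hc, (hg.cont_pd 0).comp hc, (hg.cont_pd 1).comp hc,
    fun x _ y _ => ?_, fun x _ y _ => ?_, fun x hx y hy => hg.neg _ (hm x hx y hy) 0,
    fun x hx y hy => hg.neg _ (hm x hx y hy) 1⟩
  · have h : HasDerivAt (fun x => pt x y z) (Pi.single 0 1) x := by
      refine hasDerivAt_pi.2 fun i => ?_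
      fin_cases i
      · simpa [pt] using hasDerivAt_id' x
      · simpa [pt] using hasDerivAt_const x y
      · simpa [pt] using hasDerivAt_const x z
    exact ((hg.smooth.differentiable one_ne_zero) _).hasFDerivAt.comp_hasDerivAt x h
  · have h : HasDerivAt (fun y => pt x y z) (Pi.single 1 1) y := by
      refine hasDerivAt_pi.2 fun i => ?_
      fin_cases i
      · simpa [pt] using hasDerivAt_const y x
      · simpa [pt] using hasDerivAt_id' y
      · simpa [pt] using hasDerivAt_const y z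
    exact ((hg.smooth.differentiable one_ne_zero) _).hasFDerivAt.comp_hasDerivAt y h

theorem sliceLen_eq_len (hg : Good g) (s z : ℝ) :
    sliceLen g s z =
      len (fun x y => g (pt x y z)) (fun x y => pd g 0 (pt x y z)) (fun x y => pd g 1 (pt x y z)) s := by
  have hc : ∀ y, Measurable fun x => g (pt x y z) := fun y =>
    (hg.smooth.continuous.comp (continuous_pt_fin.comp
      (continuous_id.prodMk (continuous_const.prodMk continuous_const)))).measurable
  have hS : MeasurableSet {x | x ∈ Icc (0 : ℝ) 1 ∧ g (pt x 1 z) < s ∧ s < g (pt x 0 z)} :=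
    measurableSet_Icc.inter ((measurableSet_lt (hc 1) measurable_const).inter
      (measurableSet_lt measurable_const (hc 0)))
  rw [sliceLen, len, ← lintegral_indicator measurableSet_Icc, ← lintegral_indicator hS]
  refine lintegral_congr fun x => ?_
  by_cases hx : x ∈ Icc (0 : ℝ) 1
  · by_cases hm : g (pt x 1 z) < s ∧ s < g (pt x 0 z)
    · rw [indicator_of_mem hx, indicator_of_mem (show x ∈ {x | x ∈ Icc (0 : ℝ) 1 ∧ g (pt x 1 z) < s ∧ s < g (pt x 0 z)} from ⟨hx, hm⟩),
        indicator_of_mem (show s ∈ Ioo _ _ from hm)]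
      rfl
    · rw [indicator_of_mem hx, indicator_of_notMem fun h : x ∈ {x | x ∈ Icc (0 : ℝ) 1 ∧ g (pt x 1 z) < s ∧ s < g (pt x 0 z)} => hm h.2,
        indicator_of_notMem fun h : s ∈ Ioo _ _ => hm h]
  · rw [indicator_of_notMem hx, indicator_of_notMem fun h : x ∈ {x | x ∈ Icc (0 : ℝ) 1 ∧ g (pt x 1 z) < s ∧ s < g (pt x 0 z)} => hx h.1]

section measurability

variable {α : Type*} [MeasurableSpace α]

theorem Good.meas_g (hg : Good g) {x y z : α → ℝ} (hx : Measurable x) (hy : Measurable y)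
    (hz : Measurable z) : Measurable fun a => g (pt (x a) (y a) (z a)) :=
  (hg.smooth.continuous.comp continuous_pt_fin).measurable.comp (hx.prodMk (hy.prodMk hz))

theorem Good.meas_lenY (hg : Good g) {s x z : α → ℝ} (hs : Measurable s) (hx : Measurable x)
    (hz : Measurable z) : Measurable fun a => lenY g (s a) (x a) (z a) :=
  measurable_top (F := fun a y => g (pt (x a) y (z a)))
    (hg.meas_g (hx.comp measurable_fst) measurable_snd (hz.comp measurable_fst)) hs

theorem Good.meas_lenX (hg : Good g) {s y z : α → ℝ} (hs : Measurable s) (hy : Measurable y)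
    (hz : Measurable z) : Measurable fun a => lenX g (s a) (y a) (z a) :=
  measurable_top (F := fun a x => g (pt x (y a) (z a)))
    (hg.meas_g measurable_snd (hy.comp measurable_fst) (hz.comp measurable_fst)) hs

end measurability

theorem Good.measurable_sliceArea (hg : Good g) :
    Measurable fun a : ℝ × ℝ => sliceArea g a.1 a.2 :=
  (StronglyMeasurable.integral_prod_right' (f := fun b : (ℝ × ℝ) × ℝ => lenY g b.1.1 b.2 b.1.2)
    (hg.meas_lenY measurable_fst.fst measurable_snd measurable_fst.snd).stronglyMeasurable).measurable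

theorem Good.measurable_sliceLen (hg : Good g) :
    Measurable fun a : ℝ × ℝ => sliceLen g a.1 a.2 := by
  have hy : Measurable fun b : (ℝ × ℝ) × ℝ => pt b.2 (lenY g b.1.1 b.2 b.1.2) b.1.2 :=
    continuous_pt_fin.measurable.comp (measurable_snd.prodMk
      ((hg.meas_lenY measurable_fst.fst measurable_snd measurable_fst.snd).prodMk measurable_fst.snd))
  have hS : MeasurableSet {b : (ℝ × ℝ) × ℝ |
      g (pt b.2 1 b.1.2) < b.1.1 ∧ b.1.1 < g (pt b.2 0 b.1.2)} :=
    (measurableSet_lt (hg.meas_g measurable_snd measurable_const measurable_fst.snd) measurable_fst.fst).inter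
      (measurableSet_lt measurable_fst.fst (hg.meas_g measurable_snd measurable_const measurable_fst.snd))
  simp only [sliceLen_eq_len hg]
  exact (((((hg.cont_pd 0).measurable.comp hy).pow_const 2).add
    (((hg.cont_pd 1).measurable.comp hy).pow_const 2)).sqrt.div
      ((hg.cont_pd 1).measurable.comp hy).neg).ennreal_ofReal.indicator hS |>.lintegral_prod_right'

/-- Slicewise statements hold for almost every level and almost every slice. -/
theorem ae_swap_levels {P : ℝ → ℝ → Prop} (hm : MeasurableSet {a : ℝ × ℝ | P a.1 a.2})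
    (h : ∀ z ∈ Icc (0 : ℝ) 1, ∀ᵐ s : ℝ, P s z) :
    ∀ᵐ s : ℝ, ∀ᵐ z ∂(volume.restrict (Icc (0 : ℝ) 1)), P s z :=
  (Measure.ae_ae_comm hm).2 ((ae_restrict_iff' measurableSet_Icc).2 (Filter.Eventually.of_forall h))

theorem stmtPlanarNone : StmtPlanarNone := by
  intro g hg
  have mY := hg.meas_lenY (α := ℝ × ℝ) measurable_fst (measurable_const (a := (1 : ℝ))) measurable_snd
  have mX := hg.meas_lenX (α := ℝ × ℝ) measurable_fst (measurable_const (a := (1 : ℝ))) measurable_snd
  refine ae_swap_levels (((mY (measurableSet_singleton 0)).himp ((mX (measurableSet_singleton 0)).himp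
    (measurableSet_le (hg.measurable_sliceArea.const_mul π).sqrt.ennreal_ofReal hg.measurable_sliceLen))))
    fun z hz => ?_
  simp only [sliceLen_eq_len hg]
  exact planar_none (hg.planarSq hz)

theorem stmtPlanarOne : StmtPlanarOne := by
  intro g hg k hk
  have mY := hg.meas_lenY (α := ℝ × ℝ) measurable_fst (measurable_const (a := (1 : ℝ))) measurable_snd
  have mX := hg.meas_lenX (α := ℝ × ℝ) measurable_fst (measurable_const (a := (1 : ℝ))) measurable_snd
  refine ae_swap_levels (MeasurableSet.inter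
    ((measurableSet_lt measurable_const mY).himp ((mX (measurableSet_singleton 0)).himp
      (measurableSet_le (((hg.measurable_sliceArea.sub mY).const_mul k).add_const _).ennreal_ofReal
        hg.measurable_sliceLen)))
    ((measurableSet_lt measurable_const mX).himp ((mY (measurableSet_singleton 0)).himp
      (measurableSet_le (((hg.measurable_sliceArea.sub mX).const_mul k).add_const _).ennreal_ofReal
        hg.measurable_sliceLen))))
    fun z hz => ?_
  simp only [sliceLen_eq_len hg]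
  exact planar_one (hg.planarSq hz) hk

theorem stmtPlanarBoth : StmtPlanarBoth := by
  intro g hg
  have mY := hg.meas_lenY (α := ℝ × ℝ) measurable_fst (measurable_const (a := (1 : ℝ))) measurable_snd
  have mX := hg.meas_lenX (α := ℝ × ℝ) measurable_fst (measurable_const (a := (1 : ℝ))) measurable_snd
  have mA := measurable_const (a := (1 : ℝ)) |>.sub hg.measurable_sliceArea
  have mY1 := measurable_const (a := (1 : ℝ)) |>.sub mY
  have mX1 := measurable_const (a := (1 : ℝ)) |>.sub mX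
  refine ae_swap_levels ((measurableSet_lt measurable_const mY).himp ((measurableSet_lt measurable_const mX).himp
    ((measurableSet_le ((mA.div mY1).add ((mY1.const_mul π).div_const 4)).ennreal_ofReal hg.measurable_sliceLen).inter
      ((measurableSet_le ((mA.div mX1).add ((mX1.const_mul π).div_const 4)).ennreal_ofReal hg.measurable_sliceLen).inter
        ((measurableSet_le (mA.const_mul π).sqrt.ennreal_ofReal hg.measurable_sliceLen).inter
          (measurableSet_le ((mY1.add mX1).div_const _).ennreal_ofReal hg.measurable_sliceLen))))))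
    fun z hz => ?_
  simp only [sliceLen_eq_len hg]
  exact planar_both (hg.planarSq hz)

theorem continuous_tiltConst : Continuous tiltConst :=
  intervalIntegral.continuous_parametric_intervalIntegral_of_continuous' (by fun_prop) 0 1

theorem measurable_tiltConst : Measurable tiltConst := continuous_tiltConst.measurable

theorem tiltConst_077 : 889 / 1000 ≤ tiltConst (77 / 100) := by
  set c : ℝ := (77 / 100) ^ 2 with hc
  have hle : ∀ x ∈ Icc (0 : ℝ) 1,
      1 - c / 2 * x ^ 2 - c ^ 2 / 8 * x ^ 4 - 104 / 1000 * c ^ 3 * x ^ 6 ≤ sqrt (1 - c * x ^ 2) := by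
    intro x hx
    have hu1 : c * x ^ 2 ≤ 5929 / 10000 := by
      rw [hc]; nlinarith [pow_le_one₀ hx.1 hx.2 (n := 2)]
    have hu0 : 0 ≤ c * x ^ 2 := by positivity
    have e : 1 - c / 2 * x ^ 2 - c ^ 2 / 8 * x ^ 4 - 104 / 1000 * c ^ 3 * x ^ 6 =
        1 - c * x ^ 2 / 2 - (c * x ^ 2) ^ 2 / 8 - 104 / 1000 * (c * x ^ 2) ^ 3 := by ring
    rw [e]
    generalize c * x ^ 2 = u at *
    have u2 : u ^ 2 ≤ (5929 / 10000) ^ 2 := pow_le_pow_left₀ hu0 hu1 2
    have u3 : u ^ 3 ≤ (5929 / 10000) ^ 3 := pow_le_pow_left₀ hu0 hu1 3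
    refine le_sqrt_of_sq_le ?_
    nlinarith [mul_le_mul_of_nonneg_left (by linarith :
      1 / 8 * u * 957 / 1000 + 26 / 1000 * u ^ 2 + 10816 / 1000000 * u ^ 3 ≤ (83 : ℝ) / 1000) (pow_nonneg hu0 3)]
  have hm := intervalIntegral.integral_mono_on (μ := volume) zero_le_one
    ((by fun_prop : Continuous fun x : ℝ =>
      1 - c / 2 * x ^ 2 - c ^ 2 / 8 * x ^ 4 - 104 / 1000 * c ^ 3 * x ^ 6).intervalIntegrable 0 1)
    ((by fun_prop : Continuous fun x : ℝ => sqrt (1 - c * x ^ 2)).intervalIntegrable 0 1) hle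
  refine le_trans ?_ hm
  have i : ∀ (a : ℝ) (n : ℕ), IntervalIntegrable (fun x : ℝ => a * x ^ n) volume 0 1 := fun a n =>
    (by fun_prop : Continuous fun x : ℝ => a * x ^ n).intervalIntegrable 0 1
  rw [intervalIntegral.integral_sub (((intervalIntegrable_const).sub (i _ _)).sub (i _ _)) (i _ _),
    intervalIntegral.integral_sub ((intervalIntegrable_const).sub (i _ _)) (i _ _),
    intervalIntegral.integral_sub intervalIntegrable_const (i _ _)]
  simp only [intervalIntegral.integral_const_mul, integral_pow, intervalIntegral.integral_const, smul_eq_mul]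
  norm_num [hc]

end Vale.Agent.P232
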