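import Vale.Agent.P232.Slice.Defs
import Vale.Agent.P232.Slice.Area

/-!
# P232: elementary facts on lengths, slice areas and contacts with the far edges
-/

open MeasureTheory Set Real
open scoped ENNReal

namespace Vale.Agent.P232

variable {g : R3 → ℝ}

theorem seg_measureReal_mem (p : ℝ → Prop) :
    volume.real {t ∈ Icc (0 : ℝ) 1 | p t} ∈ Icc (0 : ℝ) 1 := by
  refine ⟨measureReal_nonneg, ?_⟩
  calc volume.real {t ∈ Icc (0 : ℝ) 1 | p t} ≤ volume.real (Icc (0 : ℝ) 1) :=
        measureReal_mono (fun t ht => ht.1) measure_Icc_lt_top.ne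
    _ = 1 := by simp

theorem seg_measureReal_mono {p q : ℝ → Prop} (h : ∀ t ∈ Icc (0 : ℝ) 1, p t → q t) :
    volume.real {t ∈ Icc (0 : ℝ) 1 | p t} ≤ volume.real {t ∈ Icc (0 : ℝ) 1 | q t} :=
  measureReal_mono (fun t ht => ⟨ht.1, h t ht.1 ht.2⟩)
    ((measure_mono fun t ht => ht.1).trans_lt measure_Icc_lt_top).ne

theorem strictAntiOn_pt₀ (hg : Good g) {y z : ℝ} (hy : y ∈ Icc (0 : ℝ) 1)
    (hz : z ∈ Icc (0 : ℝ) 1) : StrictAntiOn (fun x => g (pt x y z)) (Icc 0 1) := by
  have hd : ∀ x : ℝ, HasDerivAt (fun x => g (pt x y z)) (pd g 0 (pt x y z)) x := fun x => by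
    have h : HasDerivAt (fun x => pt x y z) (Pi.single 0 1) x := by
      refine hasDerivAt_pi.2 fun i => ?_
      fin_cases i
      · simp [pt]; exact hasDerivAt_id x
      · simpa [pt] using hasDerivAt_const x y
      · simpa [pt] using hasDerivAt_const x z
    exact ((hg.smooth.differentiable one_ne_zero) _).hasFDerivAt.comp_hasDerivAt x h
  refine strictAntiOn_of_deriv_neg (convex_Icc 0 1)
    (fun x _ => (hd x).continuousAt.continuousWithinAt) fun x hx => ?_
  rw [interior_Icc] at hx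
  rw [(hd x).deriv]
  exact hg.neg _ (Slice.pt_mem_cube (Ioo_subset_Icc_self hx) hy hz) 0

theorem lenY_mem (g : R3 → ℝ) (s x z : ℝ) : lenY g s x z ∈ Icc (0 : ℝ) 1 := seg_measureReal_mem _

theorem lenX_mem (g : R3 → ℝ) (s y z : ℝ) : lenX g s y z ∈ Icc (0 : ℝ) 1 := seg_measureReal_mem _

theorem measurable_lenY_slice (hg : Good g) (s z : ℝ) : Measurable fun x => lenY g s x z :=
  Slice.measurable_levelTop (F := fun x y => g (pt x y z))
    (Slice.measurable_g_pt hg.smooth measurable_fst measurable_snd measurable_const) measurable_const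

theorem measurable_lenY_level (hg : Good g) (x z : ℝ) : Measurable fun s => lenY g s x z :=
  Slice.measurable_levelTop (F := fun (_ : ℝ) y => g (pt x y z))
    (Slice.measurable_g_pt hg.smooth measurable_const measurable_snd measurable_const) measurable_id

theorem integrableOn_lenY (hg : Good g) (s z : ℝ) :
    IntegrableOn (fun x => lenY g s x z) (Icc (0 : ℝ) 1) := by
  refine Measure.integrableOn_of_bounded (M := 1) (by simp)
    (measurable_lenY_slice hg s z).aestronglyMeasurable (Filter.Eventually.of_forall fun x => ?_)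
  rw [Real.norm_eq_abs, abs_of_nonneg (lenY_mem g s x z).1]
  exact (lenY_mem g s x z).2

theorem sliceArea_eq_planeArea (hg : Good g) (s z : ℝ) : sliceArea g s z = Slice.sliceArea g s z := by
  have hm := Slice.measurableSet_sliceSet hg.smooth s z
  have h1 : volume (Slice.sliceSet g s z) =
      ∫⁻ x in Icc (0 : ℝ) 1, ENNReal.ofReal (lenY g s x z) := by
    rw [Measure.volume_eq_prod, Measure.prod_apply hm, ← lintegral_indicator measurableSet_Icc]
    refine lintegral_congr fun x => ?_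
    by_cases hx : x ∈ Icc (0 : ℝ) 1
    · rw [indicator_of_mem hx, lenY, ofReal_measureReal
        ((measure_mono fun t ht => ht.1).trans_lt measure_Icc_lt_top).ne]
      congr 1
      ext y
      exact ⟨fun h => ⟨h.1.2, h.2⟩, fun h => ⟨⟨hx, h.1⟩, h.2⟩⟩
    · rw [indicator_of_notMem hx]
      refine measure_mono_null (fun y hy => ?_) measure_empty
      exact absurd hy.1.1 hx
  rw [Slice.sliceArea, h1, ← ofReal_integral_eq_lintegral_ofReal (integrableOn_lenY hg s z)
    (Filter.Eventually.of_forall fun x => (lenY_mem g s x z).1), ENNReal.toReal_ofReal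
    (setIntegral_nonneg measurableSet_Icc fun x _ => (lenY_mem g s x z).1), sliceArea]

theorem sliceArea_mem (g : R3 → ℝ) (s z : ℝ) : sliceArea g s z ∈ Icc (0 : ℝ) 1 := by
  refine ⟨setIntegral_nonneg measurableSet_Icc fun x _ => (lenY_mem g s x z).1, ?_⟩
  by_cases h : IntegrableOn (fun x => lenY g s x z) (Icc (0 : ℝ) 1)
  · refine (setIntegral_mono_on h (integrableOn_const (by simp)) measurableSet_Icc
      (fun x _ => (lenY_mem g s x z).2)).trans (by simp)
  · rw [sliceArea, integral_undef h]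
    exact zero_le_one

theorem measurable_sliceArea (hg : Good g) : Measurable (Function.uncurry (sliceArea g)) := by
  have : Function.uncurry (sliceArea g) = Function.uncurry (Slice.sliceArea g) :=
    funext fun p => sliceArea_eq_planeArea hg p.1 p.2
  rw [this]
  exact Slice.measurable_sliceArea hg.smooth

theorem antitoneOn_sliceArea (hg : Good g) (s : ℝ) : AntitoneOn (sliceArea g s) (Icc 0 1) := by
  rw [funext (sliceArea_eq_planeArea hg s)]
  exact Slice.sliceArea_antitoneOn hg.smooth hg.neg s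

theorem levelVol_eq_integral (hg : Good g) (s : ℝ) :
    levelVol g s = ∫ z in Icc (0 : ℝ) 1, sliceArea g s z := by
  have h := Slice.ofReal_levelVol hg.smooth s
  simp only [← sliceArea_eq_planeArea hg] at h
  rw [← ofReal_integral_eq_lintegral_ofReal
    ((antitoneOn_sliceArea hg s).integrableOn_isCompact isCompact_Icc)
    (Filter.Eventually.of_forall fun z => (sliceArea_mem g s z).1)] at h
  exact (ENNReal.ofReal_eq_ofReal_iff measureReal_nonneg
    (setIntegral_nonneg measurableSet_Icc fun z _ => (sliceArea_mem g s z).1)).1 h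

theorem lenY_anti_z (hg : Good g) (s : ℝ) {x z z' : ℝ} (hx : x ∈ Icc (0 : ℝ) 1)
    (hz : z ∈ Icc (0 : ℝ) 1) (hz' : z' ∈ Icc (0 : ℝ) 1) (h : z ≤ z') :
    lenY g s x z' ≤ lenY g s x z :=
  seg_measureReal_mono fun y hy hlt =>
    hlt.trans_le ((Slice.strictAntiOn₂ hg.smooth hg.neg hx hy).antitoneOn hz hz' h)

theorem lenX_anti_z (hg : Good g) (s : ℝ) {y z z' : ℝ} (hy : y ∈ Icc (0 : ℝ) 1)
    (hz : z ∈ Icc (0 : ℝ) 1) (hz' : z' ∈ Icc (0 : ℝ) 1) (h : z ≤ z') :
    lenX g s y z' ≤ lenX g s y z :=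
  seg_measureReal_mono fun x hx hlt =>
    hlt.trans_le ((Slice.strictAntiOn₂ hg.smooth hg.neg hx hy).antitoneOn hz hz' h)

theorem lenY_le_sliceArea (hg : Good g) (s : ℝ) {z : ℝ} (hz : z ∈ Icc (0 : ℝ) 1) :
    lenY g s 1 z ≤ sliceArea g s z := by
  have h : ∀ x ∈ Icc (0 : ℝ) 1, lenY g s 1 z ≤ lenY g s x z := fun x hx =>
    seg_measureReal_mono fun y hy hlt =>
      hlt.trans_le ((strictAntiOn_pt₀ hg hy hz).antitoneOn hx (right_mem_Icc.2 zero_le_one) hx.2)
  have := setIntegral_mono_on (integrableOn_const (by simp)) (integrableOn_lenY hg s z)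
    measurableSet_Icc h
  simpa [sliceArea] using this

theorem pt_comp_swap01 (x y z : ℝ) : pt x y z ∘ Equiv.swap (0 : Fin 3) 1 = pt y x z := by
  ext i; fin_cases i <;> simp [pt, Equiv.swap_apply_def]

theorem pt_comp_swap12 (x y z : ℝ) : pt x y z ∘ Equiv.swap (1 : Fin 3) 2 = pt x z y := by
  ext i; fin_cases i <;> simp [pt, Equiv.swap_apply_def]

theorem sorted_contact (hs : CubeSorted g) (s : ℝ) {z : ℝ} (hz : z ∈ Icc (0 : ℝ) 1) :
    lenX g s 1 z ≤ lenY g s 1 z :=
  seg_measureReal_mono fun x hx hlt => by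
    have := hs (pt x 1 z) (Slice.pt_mem_cube hx (right_mem_Icc.2 zero_le_one) hz) 0 1
      (by decide) (by simpa [pt] using hx.2)
    rw [pt_comp_swap01] at this
    exact hlt.trans_le this

theorem seg_measureReal_pos {F : ℝ → ℝ} (hF : Continuous F) {s : ℝ} (h : s < F 0) :
    0 < volume.real {t ∈ Icc (0 : ℝ) 1 | s < F t} := by
  obtain ⟨δ, hδ, hb⟩ := Metric.mem_nhds_iff.1 (hF.continuousAt.preimage_mem_nhds (Ioi_mem_nhds h))
  refine lt_of_lt_of_le ?_ (measureReal_mono (s₁ := Ioo 0 (min δ 1)) (fun t ht => ?_)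
    ((measure_mono fun t ht => ht.1).trans_lt measure_Icc_lt_top).ne)
  · simp [hδ]
  · refine ⟨⟨ht.1.le, ht.2.le.trans (min_le_right _ _)⟩, hb ?_⟩
    rw [Metric.mem_ball, dist_eq_norm, sub_zero, Real.norm_eq_abs, abs_of_pos ht.1]
    exact ht.2.trans_le (min_le_left _ _)

theorem contacts_pos_below_cut (hg : Good g) (hs : CubeSorted g) (s : ℝ)
    (h : cut < lenZ g s 0 1) {z : ℝ} (hz : z ∈ Icc (0 : ℝ) cut) :
    0 < lenY g s 1 z ∧ 0 < lenX g s 1 z := by
  have h0 : (0 : ℝ) ∈ Icc (0 : ℝ) 1 := by norm_num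
  have h1 : (1 : ℝ) ∈ Icc (0 : ℝ) 1 := by norm_num
  have hc : cut ∈ Icc (0 : ℝ) 1 := by unfold cut; norm_num
  have hz' : z ∈ Icc (0 : ℝ) 1 := ⟨hz.1, hz.2.trans hc.2⟩
  have hanti := (Slice.strictAntiOn₂ hg.smooth hg.neg h0 h1).antitoneOn
  have hlt : s < g (pt 0 1 z) := by
    by_contra hcon
    refine not_le.2 h ?_
    calc lenZ g s 0 1 ≤ volume.real (Icc (0 : ℝ) z) := by
          refine measureReal_mono (fun t ht => ⟨ht.1.1, ?_⟩) measure_Icc_lt_top.ne
          by_contra hcon'
          exact absurd ht.2 (not_lt.2 ((hanti hz' ht.1 (not_le.1 hcon').le).trans (not_lt.1 hcon)))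
      _ = z := by simp [hz.1]
      _ ≤ cut := hz.2
  have hX : 0 < lenX g s 1 z := by
    refine seg_measureReal_pos (F := fun t => g (pt t 1 z)) (hg.smooth.continuous.comp ?_) hlt
    refine continuous_pi fun i => ?_
    fin_cases i <;> simp [pt] <;> fun_prop
  exact ⟨hX.trans_le (sorted_contact hs s hz'), hX⟩

theorem lenY_rot_zero (g : R3 → ℝ) (s : ℝ) : lenY (rot g) s 1 0 = lenZ g s 0 1 := by
  simp [lenY, lenZ, rot, pt]

theorem lenX_rot_zero_le (hs : CubeSorted g) (s : ℝ) :
    lenX (rot g) s 1 0 ≤ lenZ g s 0 1 := by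
  have he : lenX (rot g) s 1 0 = lenY g s 0 1 := by simp [lenX, lenY, rot, pt]
  rw [he]
  refine seg_measureReal_mono fun y hy hlt => ?_
  have := hs (pt 0 y 1) (Slice.pt_mem_cube (left_mem_Icc.2 zero_le_one) hy
    (right_mem_Icc.2 zero_le_one)) 1 2 (by decide) (by simpa [pt] using hy.2)
  rw [pt_comp_swap12] at this
  exact hlt.trans_le this

end Vale.Agent.P232
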