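import Vale.Agent.P232.Slice.Line

/-!
# P232: slicing of the gradient integral without the coarea formula

For a `C¹` function with negative partial derivatives on the cube, every level is a graph over the
bottom face and every level line in a horizontal slice is a graph over the first axis. Hence for
every calibration `α² + β² ≤ 1` the gradient integral dominates, level by level, the `α`-weighted
lengths of the level lines plus the `β`-weighted projection of the level surface.
-/

open MeasureTheory Set
open scoped ENNReal

namespace Vale.Agent.P232.Slice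

variable (g : R3 → ℝ)

/-- The height of the level `t` over `(x, y)`. -/
noncomputable def height (t x y : ℝ) : ℝ := levelTop (fun z => g (pt x y z)) t

/-- The width of the level `t` over `x` in the slice `z`. -/
noncomputable def width (t x z : ℝ) : ℝ := levelTop (fun y => g (pt x y z)) t

/-- The slope of the level line in a slice. -/
noncomputable def slope (p : R3) : ℝ := pd g 0 p / pd g 1 p

/-- The length of the level line in the slice `z`, inside the open square. -/
noncomputable def sliceLen (t z : ℝ) : ℝ≥0∞ :=
  ∫⁻ x in I, (Set.Ioo (g (pt x 1 z)) (g (pt x 0 z))).indicator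
    (fun t => ENNReal.ofReal (Real.sqrt (1 + slope g (pt x (width g t x z) z) ^ 2))) t

/-- The integral of `b` of the height over the projection of the level surface. -/
noncomputable def topInt (b : ℝ → ℝ) (t : ℝ) : ℝ≥0∞ :=
  ∫⁻ x in I, ∫⁻ y in I, (Set.Ioo (g (pt x y 1)) (g (pt x y 0))).indicator
    (fun t => ENNReal.ofReal (b (height g t x y))) t

variable {g}

theorem rot3 {F : ℝ → ℝ → ℝ → ℝ≥0∞}
    (hF : Measurable fun p : ℝ × ℝ × ℝ => F p.1 p.2.1 p.2.2) :
    ∫⁻ a in I, ∫⁻ b in I, ∫⁻ c in I, F a b c = ∫⁻ b in I, ∫⁻ c in I, ∫⁻ a in I, F a b c := by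
  have h1 : Measurable (Function.uncurry fun a b => ∫⁻ c in I, F a b c) :=
    Measurable.lintegral_prod_right (f := fun (q : ℝ × ℝ) c => F q.1 q.2 c)
      (hF.comp (measurable_fst.fst.prodMk (measurable_fst.snd.prodMk measurable_snd)))
  rw [lintegral_lintegral_swap h1.aemeasurable]
  refine lintegral_congr fun b => lintegral_lintegral_swap (Measurable.aemeasurable ?_)
  exact hF.comp (measurable_fst.prodMk (measurable_const.prodMk measurable_snd))

variable (hg : ContDiff ℝ 1 g)
include hg

theorem continuous_pd (i : Fin 3) : Continuous (pd g i) :=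
  (hg.continuous_fderiv one_ne_zero).clm_apply continuous_const

theorem continuous_gradNorm : Continuous (gradNorm g) :=
  (continuous_finsetSum _ fun i _ => (continuous_pd hg i).pow 2).sqrt

theorem measurable_slope : Measurable (slope g) :=
  (continuous_pd hg 0).measurable.div (continuous_pd hg 1).measurable

omit hg in
theorem measurable_pt {α : Type*} [MeasurableSpace α] {x y z : α → ℝ} (hx : Measurable x)
    (hy : Measurable y) (hz : Measurable z) : Measurable fun a => pt (x a) (y a) (z a) :=
  continuous_pt.measurable.comp (hx.prodMk (hy.prodMk hz))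

theorem measurable_g_pt {α : Type*} [MeasurableSpace α] {x y z : α → ℝ} (hx : Measurable x)
    (hy : Measurable y) (hz : Measurable z) : Measurable fun a => g (pt (x a) (y a) (z a)) :=
  hg.continuous.measurable.comp (measurable_pt hx hy hz)

theorem measurable_height {α : Type*} [MeasurableSpace α] {t x y : α → ℝ} (ht : Measurable t)
    (hx : Measurable x) (hy : Measurable y) :
    Measurable fun a => height g (t a) (x a) (y a) :=
  measurable_levelTop (F := fun a z => g (pt (x a) (y a) z))
    (measurable_g_pt hg (hx.comp measurable_fst) (hy.comp measurable_fst) measurable_snd) ht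

theorem measurable_width {α : Type*} [MeasurableSpace α] {t x z : α → ℝ} (ht : Measurable t)
    (hx : Measurable x) (hz : Measurable z) :
    Measurable fun a => width g (t a) (x a) (z a) :=
  measurable_levelTop (F := fun a y => g (pt (x a) y (z a)))
    (measurable_g_pt hg (hx.comp measurable_fst) measurable_snd (hz.comp measurable_fst)) ht

variable (hval : ∀ p ∈ cube, g p ∈ I) (hneg : ∀ p ∈ cube, ∀ i, pd g i p < 0)
include hval hneg

/-- The projection term as an integral over the cube. -/
theorem lintegral_topInt {β : ℝ → ℝ → ℝ} (hβ : Measurable (Function.uncurry β)) :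
    ∫⁻ t in I, topInt g (β t) t =
      ∫⁻ p in cube, ENNReal.ofReal (-pd g 2 p) * ENNReal.ofReal (β (g p) (p 2)) := by
  have hm : Measurable fun q : ℝ × ℝ × ℝ =>
      (Set.Ioo (g (pt q.2.1 q.2.2 1)) (g (pt q.2.1 q.2.2 0))).indicator
        (fun t => ENNReal.ofReal (β t (height g t q.2.1 q.2.2))) q.1 := by
    have hs : MeasurableSet {q : ℝ × ℝ × ℝ |
        g (pt q.2.1 q.2.2 1) < q.1 ∧ q.1 < g (pt q.2.1 q.2.2 0)} :=
      (measurableSet_lt (measurable_g_pt hg measurable_snd.fst measurable_snd.snd measurable_const)
        measurable_fst).inter (measurableSet_lt measurable_fst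
          (measurable_g_pt hg measurable_snd.fst measurable_snd.snd measurable_const))
    simp only [indicator_apply, mem_Ioo]
    exact Measurable.ite hs (hβ.comp (measurable_fst.prodMk
      (measurable_height hg measurable_fst measurable_snd.fst measurable_snd.snd))).ennreal_ofReal
      measurable_const
  simp only [topInt]
  have hmp : Measurable fun p => ENNReal.ofReal (-pd g 2 p) * ENNReal.ofReal (β (g p) (p 2)) :=
    (continuous_pd hg 2).measurable.neg.ennreal_ofReal.mul
      (hβ.comp (hg.continuous.measurable.prodMk (measurable_pi_apply 2))).ennreal_ofReal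
  rw [rot3 hm, lintegral_cube hmp]
  refine setLIntegral_congr_fun measurableSet_Icc fun x hx => ?_
  refine setLIntegral_congr_fun measurableSet_Icc fun y hy => ?_
  exact lintegral_level (F := fun z => g (pt x y z)) (F' := fun z => pd g 2 (pt x y z))
    (fun z _ => hasDerivAt_pt₂ hg x y z) (fun z hz => hneg _ (pt_mem_cube hx hy hz) 2)
    (fun z hz => hval _ (pt_mem_cube hx hy hz)) fun z t => ENNReal.ofReal (β t z)

/-- The slice term as an integral over the cube. -/
theorem lintegral_sliceLen {α : ℝ → ℝ → ℝ} (hα : Measurable (Function.uncurry α)) :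
    ∫⁻ t in I, ∫⁻ z in I, ENNReal.ofReal (α t z) * sliceLen g t z =
      ∫⁻ p in cube, ENNReal.ofReal (α (g p) (p 2)) *
        (ENNReal.ofReal (-pd g 1 p) * ENNReal.ofReal (Real.sqrt (1 + slope g p ^ 2))) := by
  have hm : Measurable fun q : ℝ × ℝ × ℝ =>
      (Set.Ioo (g (pt q.2.2 1 q.2.1)) (g (pt q.2.2 0 q.2.1))).indicator
        (fun t => ENNReal.ofReal (α t q.2.1) * ENNReal.ofReal
          (Real.sqrt (1 + slope g (pt q.2.2 (width g t q.2.2 q.2.1) q.2.1) ^ 2))) q.1 := by
    have hs : MeasurableSet {q : ℝ × ℝ × ℝ |
        g (pt q.2.2 1 q.2.1) < q.1 ∧ q.1 < g (pt q.2.2 0 q.2.1)} :=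
      (measurableSet_lt (measurable_g_pt hg measurable_snd.snd measurable_const measurable_snd.fst)
        measurable_fst).inter (measurableSet_lt measurable_fst
          (measurable_g_pt hg measurable_snd.snd measurable_const measurable_snd.fst))
    simp only [indicator_apply, mem_Ioo]
    refine Measurable.ite hs ?_ measurable_const
    exact (hα.comp (measurable_fst.prodMk measurable_snd.fst)).ennreal_ofReal.mul
      (measurable_const.add (((measurable_slope hg).comp (measurable_pt measurable_snd.snd
        (measurable_width hg measurable_fst measurable_snd.snd measurable_snd.fst)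
        measurable_snd.fst)).pow_const 2)).sqrt.ennreal_ofReal
  have hmp : Measurable fun p => ENNReal.ofReal (α (g p) (p 2)) *
      (ENNReal.ofReal (-pd g 1 p) * ENNReal.ofReal (Real.sqrt (1 + slope g p ^ 2))) :=
    (hα.comp (hg.continuous.measurable.prodMk (measurable_pi_apply 2))).ennreal_ofReal.mul
      ((continuous_pd hg 1).measurable.neg.ennreal_ofReal.mul
        (measurable_const.add ((measurable_slope hg).pow_const 2)).sqrt.ennreal_ofReal)
  have e : ∀ t z, ENNReal.ofReal (α t z) * sliceLen g t z = ∫⁻ x in I,
      (Set.Ioo (g (pt x 1 z)) (g (pt x 0 z))).indicator (fun t => ENNReal.ofReal (α t z) *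
        ENNReal.ofReal (Real.sqrt (1 + slope g (pt x (width g t x z) z) ^ 2))) t := by
    intro t z
    rw [sliceLen, ← lintegral_const_mul' _ _ ENNReal.ofReal_ne_top]
    refine lintegral_congr fun x => ?_
    simp only [indicator_apply]
    split_ifs <;> simp
  simp only [e]
  rw [rot3 hm, lintegral_cube hmp]
  calc ∫⁻ z in I, ∫⁻ x in I, ∫⁻ t in I, _
      = ∫⁻ z in I, ∫⁻ x in I, ∫⁻ y in I, ENNReal.ofReal (α (g (pt x y z)) (pt x y z 2)) *
          (ENNReal.ofReal (-pd g 1 (pt x y z)) *
            ENNReal.ofReal (Real.sqrt (1 + slope g (pt x y z) ^ 2))) := by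
        refine setLIntegral_congr_fun measurableSet_Icc fun z hz => ?_
        refine setLIntegral_congr_fun measurableSet_Icc fun x hx => ?_
        refine (lintegral_level (F := fun y => g (pt x y z)) (F' := fun y => pd g 1 (pt x y z))
          (fun y _ => hasDerivAt_pt₁ hg x y z) (fun y hy => hneg _ (pt_mem_cube hx hy hz) 1)
          (fun y hy => hval _ (pt_mem_cube hx hy hz)) fun y t => ENNReal.ofReal (α t z) *
            ENNReal.ofReal (Real.sqrt (1 + slope g (pt x y z) ^ 2))).trans ?_
        refine lintegral_congr fun y => ?_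
        show ENNReal.ofReal (-pd g 1 (pt x y z)) * (ENNReal.ofReal (α (g (pt x y z)) z) * _) = _
        rw [mul_left_comm]
        rfl
    _ = _ := rot3 (F := fun z x y => ENNReal.ofReal (α (g (pt x y z)) (pt x y z 2)) *
          (ENNReal.ofReal (-pd g 1 (pt x y z)) *
            ENNReal.ofReal (Real.sqrt (1 + slope g (pt x y z) ^ 2))))
        (hmp.comp (measurable_pt measurable_snd.fst measurable_snd.snd measurable_fst))

/-- SLICING: the gradient integral dominates every calibrated slicing, level by level. -/
theorem slicing {α β : ℝ → ℝ → ℝ} (hα : Measurable (Function.uncurry α))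
    (hβ : Measurable (Function.uncurry β)) (hα0 : ∀ t z, 0 ≤ α t z) (hβ0 : ∀ t z, 0 ≤ β t z)
    (hcal : ∀ t z, α t z ^ 2 + β t z ^ 2 ≤ 1) :
    ∫⁻ t in I, ((∫⁻ z in I, ENNReal.ofReal (α t z) * sliceLen g t z) + topInt g (β t) t) ≤
      ENNReal.ofReal (∫ p in cube, gradNorm g p) := by
  have hint : IntegrableOn (gradNorm g) cube :=
    (continuous_gradNorm hg).continuousOn.integrableOn_compact isCompact_Icc
  have hmA : Measurable fun t => ∫⁻ z in I, ENNReal.ofReal (α t z) * sliceLen g t z := by
    refine Measurable.lintegral_prod_right (f := fun t z => ENNReal.ofReal (α t z) * sliceLen g t z)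
      (hα.ennreal_ofReal.mul ?_)
    refine Measurable.lintegral_prod_right (f := fun (q : ℝ × ℝ) x =>
      (Set.Ioo (g (pt x 1 q.2)) (g (pt x 0 q.2))).indicator
        (fun t => ENNReal.ofReal (Real.sqrt (1 + slope g (pt x (width g t x q.2) q.2) ^ 2))) q.1) ?_
    simp only [Function.uncurry_def, indicator_apply, mem_Ioo]
    refine Measurable.ite ((measurableSet_lt (measurable_g_pt hg measurable_snd measurable_const
      measurable_fst.snd) measurable_fst.fst).inter (measurableSet_lt measurable_fst.fst
        (measurable_g_pt hg measurable_snd measurable_const measurable_fst.snd))) ?_ measurable_const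
    exact (measurable_const.add (((measurable_slope hg).comp (measurable_pt measurable_snd
      (measurable_width hg measurable_fst.fst measurable_snd measurable_fst.snd)
      measurable_fst.snd)).pow_const 2)).sqrt.ennreal_ofReal
  rw [lintegral_add_left hmA, lintegral_sliceLen hg hval hneg hα, lintegral_topInt hg hval hneg hβ,
    ← lintegral_add_right _ ?_, ofReal_integral_eq_lintegral_ofReal hint
      (Filter.Eventually.of_forall fun p => Real.sqrt_nonneg _)]
  · refine setLIntegral_mono' measurableSet_cube fun p hp => ?_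
    have hy : 0 ≤ -pd g 1 p := (neg_pos.2 (hneg p hp 1)).le
    have hz : 0 ≤ -pd g 2 p := (neg_pos.2 (hneg p hp 2)).le
    rw [← ENNReal.ofReal_mul hy, ← ENNReal.ofReal_mul (hα0 _ _), ← ENNReal.ofReal_mul hz,
      ← ENNReal.ofReal_add (mul_nonneg (hα0 _ _) (mul_nonneg hy (Real.sqrt_nonneg _)))
        (mul_nonneg hz (hβ0 _ _))]
    refine ENNReal.ofReal_le_ofReal ?_
    have hne : pd g 1 p ≠ 0 := (hneg p hp 1).ne
    have e : -pd g 1 p * Real.sqrt (1 + slope g p ^ 2) =
        Real.sqrt (pd g 0 p ^ 2 + pd g 1 p ^ 2) := by
      rw [← Real.sqrt_sq hy, ← Real.sqrt_mul (sq_nonneg _), slope]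
      congr 1
      field_simp
      ring
    rw [e, gradNorm, Fin.sum_univ_three]
    set r := Real.sqrt (pd g 0 p ^ 2 + pd g 1 p ^ 2)
    have hr : r ^ 2 = pd g 0 p ^ 2 + pd g 1 p ^ 2 := Real.sq_sqrt (by positivity)
    refine Real.le_sqrt_of_sq_le ?_
    nlinarith [sq_nonneg (α (g p) (p 2) * pd g 2 p + β (g p) (p 2) * r),
      mul_nonneg (sub_nonneg.2 (hcal (g p) (p 2))) (by positivity : 0 ≤ r ^ 2 + pd g 2 p ^ 2)]
  · exact (continuous_pd hg 2).measurable.neg.ennreal_ofReal.mul
      (hβ.comp (hg.continuous.measurable.prodMk (measurable_pi_apply 2))).ennreal_ofReal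

end Vale.Agent.P232.Slice
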