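import Vale.Agent.P232.Slice.Defs
import Vale.Agent.P232.Slice.Slicing

/-!
# P232: the coarea formula for a function decreasing along the third axis

`lintegral_subst` is the substitution along one line, for all levels. The coarea formula follows
by Fubini.
-/

open MeasureTheory Set Real
open scoped ENNReal

namespace Vale.Agent.P232

open Slice (I levelTop)

/-- Substitution along a line: positions in the unit interval against levels. The position of the
level `t` is the length of the superlevel segment. -/
theorem lintegral_subst {F F' : ℝ → ℝ} (hd : ∀ s ∈ I, HasDerivAt F (F' s) s)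
    (hneg : ∀ s ∈ I, F' s < 0) (φ : ℝ → ℝ → ℝ≥0∞) :
    ∫⁻ t in Ioo (F 1) (F 0), φ (levelTop F t) t =
      ∫⁻ s in I, ENNReal.ofReal (-F' s) * φ s (F s) := by
  have hc : ContinuousOn F I := fun s hs => (hd s hs).continuousAt.continuousWithinAt
  have hanti : StrictAntiOn F I := by
    refine strictAntiOn_of_deriv_neg (convex_Icc 0 1) hc fun s hs => ?_
    rw [interior_Icc] at hs
    rw [(hd s (Ioo_subset_Icc_self hs)).deriv]
    exact hneg s (Ioo_subset_Icc_self hs)
  have h0 : (0 : ℝ) ∈ I := left_mem_Icc.2 zero_le_one
  have h1 : (1 : ℝ) ∈ I := right_mem_Icc.2 zero_le_one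
  have himg : F '' I = Icc (F 1) (F 0) := by
    refine Subset.antisymm ?_ (intermediate_value_Icc' zero_le_one hc)
    rintro _ ⟨s, hs, rfl⟩
    exact ⟨hanti.antitoneOn hs h1 hs.2, hanti.antitoneOn h0 hs hs.1⟩
  rw [setLIntegral_congr Ioo_ae_eq_Icc, ← himg,
    lintegral_image_eq_lintegral_abs_deriv_mul measurableSet_Icc
      (fun s hs => (hd s hs).hasDerivWithinAt) hanti.injOn]
  refine setLIntegral_congr_fun measurableSet_Icc fun s hs => ?_
  simp only [Slice.levelTop_apply hanti hs, abs_of_neg (hneg s hs)]

/-- An integral over a part of the unit interval cut out by an open range condition. -/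
theorem setLIntegral_range (a b : ℝ → ℝ) (ha : Measurable a) (hb : Measurable b) (s : ℝ)
    (f : ℝ → ℝ≥0∞) :
    ∫⁻ y in {y ∈ Icc (0 : ℝ) 1 | a y < s ∧ s < b y}, f y =
      ∫⁻ y in Icc (0 : ℝ) 1, (Ioo (a y) (b y)).indicator (fun _ => f y) s := by
  have hS : MeasurableSet {y : ℝ | a y < s ∧ s < b y} :=
    (measurableSet_lt ha measurable_const).inter (measurableSet_lt measurable_const hb)
  rw [show {y ∈ Icc (0 : ℝ) 1 | a y < s ∧ s < b y} =
      {y : ℝ | a y < s ∧ s < b y} ∩ Icc (0 : ℝ) 1 from by ext y; exact and_comm,
    ← Measure.restrict_restrict hS, ← lintegral_indicator hS]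
  refine lintegral_congr fun y => ?_
  simp only [indicator_apply, mem_ofPred_eq, mem_Ioo]

/-- Levels first, then two coordinates: the order can be exchanged. -/
theorem lintegral_swap3 {F : ℝ → ℝ → ℝ → ℝ≥0∞}
    (hF : Measurable fun q : ℝ × ℝ × ℝ => F q.1 q.2.1 q.2.2) :
    ∫⁻ s, ∫⁻ x in I, ∫⁻ y in I, F s x y = ∫⁻ x in I, ∫⁻ y in I, ∫⁻ s, F s x y := by
  have h1 : Measurable (Function.uncurry fun s x => ∫⁻ y in I, F s x y) :=
    Measurable.lintegral_prod_right (f := fun (q : ℝ × ℝ) y => F q.1 q.2 y)
      (hF.comp (measurable_fst.fst.prodMk (measurable_fst.snd.prodMk measurable_snd)))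
  rw [lintegral_lintegral_swap h1.aemeasurable]
  refine lintegral_congr fun x => lintegral_lintegral_swap (Measurable.aemeasurable ?_)
  exact hF.comp (measurable_fst.prodMk (measurable_const.prodMk measurable_snd))

/-- The coarea formula with a density `u` on the cube. -/
theorem lintegral_levels {g : R3 → ℝ} (hg : Good g) {u : ℝ → R3 → ℝ≥0∞}
    (hu : Measurable (Function.uncurry u)) :
    ∫⁻ s, ∫⁻ x in Icc (0 : ℝ) 1,
        ∫⁻ y in {y ∈ Icc (0 : ℝ) 1 | g (pt x y 1) < s ∧ s < g (pt x y 0)},
          u s (pt x y (lenZ g s x y)) =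
      ∫⁻ p in cube, ENNReal.ofReal (-pd g 2 p) * u (g p) p := by
  have hc := hg.smooth
  have hm : Measurable fun q : ℝ × ℝ × ℝ =>
      (Ioo (g (Slice.pt q.2.1 q.2.2 1)) (g (Slice.pt q.2.1 q.2.2 0))).indicator
        (fun _ => u q.1 (Slice.pt q.2.1 q.2.2 (Slice.height g q.1 q.2.1 q.2.2))) q.1 := by
    have hs : MeasurableSet {q : ℝ × ℝ × ℝ | g (Slice.pt q.2.1 q.2.2 1) < q.1 ∧
        q.1 < g (Slice.pt q.2.1 q.2.2 0)} :=
      (measurableSet_lt (Slice.measurable_g_pt hc measurable_snd.fst measurable_snd.snd
        measurable_const) measurable_fst).inter (measurableSet_lt measurable_fst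
          (Slice.measurable_g_pt hc measurable_snd.fst measurable_snd.snd measurable_const))
    simp only [indicator_apply, mem_Ioo]
    exact Measurable.ite hs (hu.comp (measurable_fst.prodMk (Slice.measurable_pt measurable_snd.fst
      measurable_snd.snd (Slice.measurable_height hc measurable_fst measurable_snd.fst
        measurable_snd.snd)))) measurable_const
  have e : ∀ s x, ∫⁻ y in {y ∈ Icc (0 : ℝ) 1 | g (pt x y 1) < s ∧ s < g (pt x y 0)},
      u s (pt x y (lenZ g s x y)) = ∫⁻ y in I, (Ioo (g (Slice.pt x y 1)) (g (Slice.pt x y 0))).indicator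
        (fun _ => u s (Slice.pt x y (Slice.height g s x y))) s := fun s x =>
    setLIntegral_range (fun y => g (pt x y 1)) (fun y => g (pt x y 0))
      (Slice.measurable_g_pt hc measurable_const measurable_id measurable_const)
      (Slice.measurable_g_pt hc measurable_const measurable_id measurable_const) s _
  have hmp : Measurable fun p => ENNReal.ofReal (-pd g 2 p) * u (g p) p :=
    (Slice.continuous_pd hc 2).measurable.neg.ennreal_ofReal.mul
      (hu.comp (hc.continuous.measurable.prodMk measurable_id))
  simp only [e]
  rw [lintegral_swap3 hm, Slice.lintegral_cube hmp]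
  refine setLIntegral_congr_fun measurableSet_Icc fun x hx => ?_
  refine setLIntegral_congr_fun measurableSet_Icc fun y hy => ?_
  refine Eq.trans ?_ (lintegral_subst (F := fun z => g (Slice.pt x y z))
    (F' := fun z => pd g 2 (Slice.pt x y z)) (fun z _ => Slice.hasDerivAt_pt₂ hc x y z)
    (fun z hz => hg.neg _ (Slice.pt_mem_cube hx hy hz) 2) fun z t => u t (Slice.pt x y z))
  rw [← lintegral_indicator measurableSet_Ioo]
  refine lintegral_congr fun t => ?_
  simp only [indicator_apply]
  rfl

/-- The integrand of `levelArea` is measurable. -/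
theorem measurable_area {g : R3 → ℝ} (hg : Good g) (s : ℝ) :
    Measurable fun q : ℝ × ℝ =>
      ENNReal.ofReal (gradNorm g (pt q.1 q.2 (lenZ g s q.1 q.2)) /
        -pd g 2 (pt q.1 q.2 (lenZ g s q.1 q.2))) := by
  have hp : Measurable fun q : ℝ × ℝ => pt q.1 q.2 (lenZ g s q.1 q.2) :=
    Slice.measurable_pt measurable_fst measurable_snd
      (Slice.measurable_height hg.smooth measurable_const measurable_fst measurable_snd)
  exact (((Slice.continuous_gradNorm hg.smooth).measurable.comp hp).div
    ((Slice.continuous_pd hg.smooth 2).measurable.comp hp).neg).ennreal_ofReal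

/-- Coarea: localised in the level. -/
theorem stmtCoarea : StmtCoarea := by
  intro g hg h hh
  have hu : Measurable (Function.uncurry fun (s : ℝ) (p : R3) =>
      h s * ENNReal.ofReal (gradNorm g p / -pd g 2 p)) :=
    (hh.comp measurable_fst).mul (((Slice.continuous_gradNorm hg.smooth).measurable.comp
      measurable_snd).div ((Slice.continuous_pd hg.smooth 2).measurable.comp
        measurable_snd).neg).ennreal_ofReal
  have key := lintegral_levels hg hu
  calc ∫⁻ x in cube, h (g x) * ENNReal.ofReal (gradNorm g x)
      = ∫⁻ p in cube, ENNReal.ofReal (-pd g 2 p) *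
          (h (g p) * ENNReal.ofReal (gradNorm g p / -pd g 2 p)) := by
        refine setLIntegral_congr_fun measurableSet_Icc fun p hp => ?_
        have hz : 0 < -pd g 2 p := neg_pos.2 (hg.neg p hp 2)
        rw [mul_left_comm, ← ENNReal.ofReal_mul hz.le, mul_div_cancel₀ _ hz.ne']
    _ = _ := key.symm
    _ = ∫⁻ s, h s * levelArea g s := by
        refine lintegral_congr fun s => ?_
        have hm : Measurable fun q : ℝ × ℝ =>
            (Ioo (g (pt q.1 q.2 1)) (g (pt q.1 q.2 0))).indicator (fun _ => ENNReal.ofReal
              (gradNorm g (pt q.1 q.2 (lenZ g s q.1 q.2)) /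
                -pd g 2 (pt q.1 q.2 (lenZ g s q.1 q.2)))) s := by
          simp only [indicator_apply, mem_Ioo]
          exact Measurable.ite
            ((measurableSet_lt (Slice.measurable_g_pt hg.smooth measurable_fst measurable_snd
              measurable_const) measurable_const).inter (measurableSet_lt measurable_const
              (Slice.measurable_g_pt hg.smooth measurable_fst measurable_snd measurable_const)))
            (measurable_area hg s) measurable_const
        have e : ∀ (f : ℝ → ℝ≥0∞) x,
            ∫⁻ y in {y ∈ Icc (0 : ℝ) 1 | g (pt x y 1) < s ∧ s < g (pt x y 0)}, f y =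
              ∫⁻ y in Icc (0 : ℝ) 1, (Ioo (g (pt x y 1)) (g (pt x y 0))).indicator
                (fun _ => f y) s := fun f x =>
          setLIntegral_range (fun y => g (pt x y 1)) (fun y => g (pt x y 0))
            (Slice.measurable_g_pt hg.smooth measurable_const measurable_id measurable_const)
            (Slice.measurable_g_pt hg.smooth measurable_const measurable_id measurable_const) s f
        simp only [levelArea, e]
        rw [← lintegral_const_mul _ (Measurable.lintegral_prod_right
          (f := fun x y => (Ioo (g (pt x y 1)) (g (pt x y 0))).indicator (fun _ => ENNReal.ofReal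
            (gradNorm g (pt x y (lenZ g s x y)) / -pd g 2 (pt x y (lenZ g s x y)))) s) hm)]
        refine lintegral_congr fun x => ?_
        refine Eq.trans ?_ (lintegral_const_mul _ (hm.comp (measurable_prodMk_left (x := x))))
        refine lintegral_congr fun y => ?_
        simp only [indicator_apply, mul_ite, mul_zero]

end Vale.Agent.P232
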