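import Vale.Agent.P232.Slice.Defs
import Vale.Agent.P232.Slice.Area

/-!
# P232: basic properties of the segment lengths and of the slice areas

For a `Good` function the three segment lengths take values in `[0,1]`, are monotone in the level
and in the coordinates, and describe the superlevel set. The slice area is the integral of either
family of segment lengths, and its integral is the volume of the superlevel set.
-/

open MeasureTheory Set Real
open scoped ENNReal

namespace Vale.Agent.P232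

open Slice (I levelTop levelTop_apply)

/-! ## One line -/

section Line

variable {F : ℝ → ℝ}

theorem levelTop_mem_I (F : ℝ → ℝ) (s : ℝ) : levelTop F s ∈ I := by
  refine ⟨ENNReal.toReal_nonneg, ?_⟩
  have h : volume {r ∈ I | s < F r} ≤ volume I := measure_mono fun _ h => h.1
  rw [Real.volume_Icc, sub_zero, ENNReal.ofReal_one] at h
  exact ENNReal.toReal_le_of_le_ofReal zero_le_one (by rwa [ENNReal.ofReal_one])

theorem volume_segment_ne_top (F : ℝ → ℝ) (s : ℝ) : volume {r ∈ I | s < F r} ≠ ⊤ :=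
  ((measure_mono fun _ h => h.1).trans_lt isCompact_Icc.measure_lt_top).ne

theorem levelTop_antitone (F : ℝ → ℝ) : Antitone (levelTop F) := fun s _ h =>
  ENNReal.toReal_mono (volume_segment_ne_top F s) (measure_mono fun _ hr => ⟨hr.1, h.trans_lt hr.2⟩)

theorem levelTop_mono {F G : ℝ → ℝ} (h : ∀ r ∈ I, F r ≤ G r) (s : ℝ) :
    levelTop F s ≤ levelTop G s :=
  ENNReal.toReal_mono (volume_segment_ne_top G s)
    (measure_mono fun r hr => ⟨hr.1, hr.2.trans_le (h r hr.1)⟩)

theorem levelTop_eq_zero_of_le (hF : StrictAntiOn F I) {s : ℝ} (h : F 0 ≤ s) :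
    levelTop F s = 0 := by
  have e : {r ∈ I | s < F r} = ∅ := eq_empty_of_forall_notMem fun r hr =>
    not_lt.2 ((hF.antitoneOn (left_mem_Icc.2 zero_le_one) hr.1 hr.1.1).trans h) hr.2
  rw [levelTop, e, measure_empty, ENNReal.toReal_zero]

theorem levelTop_eq_one_of_lt (hF : StrictAntiOn F I) {s : ℝ} (h : s < F 1) :
    levelTop F s = 1 := by
  have e : {r ∈ I | s < F r} = I := ext fun r => ⟨fun hr => hr.1, fun hr =>
    ⟨hr, h.trans_le (hF.antitoneOn hr (right_mem_Icc.2 zero_le_one) hr.2)⟩⟩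
  rw [levelTop, e, Real.volume_Icc, sub_zero, ENNReal.toReal_ofReal zero_le_one]

theorem levelTop_spec (hF : StrictAntiOn F I) (hc : ContinuousOn F I) {s : ℝ}
    (h1 : F 1 ≤ s) (h0 : s ≤ F 0) : levelTop F s ∈ I ∧ F (levelTop F s) = s := by
  obtain ⟨r, hr, rfl⟩ := intermediate_value_Icc' zero_le_one hc ⟨h1, h0⟩
  rw [levelTop_apply hF hr]
  exact ⟨hr, rfl⟩

/-- Membership rule. -/
theorem lt_levelTop_iff (hF : StrictAntiOn F I) (hc : ContinuousOn F I) {s t : ℝ}
    (ht : t ∈ Ioo (0 : ℝ) 1) : t < levelTop F s ↔ s < F t := by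
  have htI : t ∈ I := Ioo_subset_Icc_self ht
  rcases lt_or_ge s (F 1) with h | h
  · rw [levelTop_eq_one_of_lt hF h]
    exact iff_of_true ht.2 (h.trans_le (hF.antitoneOn htI (right_mem_Icc.2 zero_le_one) ht.2.le))
  rcases le_or_gt (F 0) s with h0 | h0
  · rw [levelTop_eq_zero_of_le hF h0]
    exact iff_of_false (not_lt.2 ht.1.le)
      (not_lt.2 ((hF.antitoneOn (left_mem_Icc.2 zero_le_one) htI ht.1.le).trans h0))
  obtain ⟨hr, e⟩ := levelTop_spec hF hc h h0.le
  conv_rhs => rw [← e]
  exact (hF.lt_iff_gt hr htI).symm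

theorem levelTop_eq_zero_iff (hF : StrictAntiOn F I) (hc : ContinuousOn F I) {s : ℝ} :
    levelTop F s = 0 ↔ F 0 ≤ s := by
  refine ⟨fun h => not_lt.1 fun hlt => ?_, levelTop_eq_zero_of_le hF⟩
  rcases lt_or_ge s (F 1) with h1 | h1
  · rw [levelTop_eq_one_of_lt hF h1] at h
    exact one_ne_zero h
  · have := (levelTop_spec hF hc h1 hlt.le).2
    rw [h] at this
    exact hlt.ne' this

theorem levelTop_pos_iff (hF : StrictAntiOn F I) (hc : ContinuousOn F I) {s : ℝ} :
    0 < levelTop F s ↔ s < F 0 := by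
  rw [(levelTop_mem_I F s).1.lt_iff_ne, ne_comm, ne_eq, levelTop_eq_zero_iff hF hc, not_le]

end Line

/-! ## The three segment lengths -/

variable {g : R3 → ℝ}

theorem pt_mem_cube {x y z : ℝ} (hx : x ∈ I) (hy : y ∈ I) (hz : z ∈ I) : pt x y z ∈ cube :=
  Slice.pt_mem_cube hx hy hz

theorem lenZ_eq (g : R3 → ℝ) (s x y : ℝ) : lenZ g s x y = levelTop (fun z => g (pt x y z)) s :=
  rfl

theorem lenY_eq (g : R3 → ℝ) (s x z : ℝ) : lenY g s x z = levelTop (fun y => g (pt x y z)) s :=
  rfl

theorem lenX_eq (g : R3 → ℝ) (s y z : ℝ) : lenX g s y z = levelTop (fun x => g (pt x y z)) s :=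
  rfl

theorem lenX_mem_I (g : R3 → ℝ) (s y z : ℝ) : lenX g s y z ∈ I := levelTop_mem_I _ s

theorem lenY_mem_I (g : R3 → ℝ) (s x z : ℝ) : lenY g s x z ∈ I := levelTop_mem_I _ s

theorem lenZ_mem_I (g : R3 → ℝ) (s x y : ℝ) : lenZ g s x y ∈ I := levelTop_mem_I _ s

theorem hasDerivAt_pt₀ (hg : ContDiff ℝ 1 g) (x y z : ℝ) :
    HasDerivAt (fun x => g (pt x y z)) (pd g 0 (pt x y z)) x := by
  have h : HasDerivAt (fun x => pt x y z) (Pi.single 0 1) x := by
    refine hasDerivAt_pi.2 fun i => ?_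
    fin_cases i
    · simp [pt]
      exact hasDerivAt_id x
    · simpa [pt] using hasDerivAt_const x y
    · simpa [pt] using hasDerivAt_const x z
  exact ((hg.differentiable one_ne_zero) _).hasFDerivAt.comp_hasDerivAt x h

theorem continuous_g_pt (hg : ContDiff ℝ 1 g) {α : Type*} [TopologicalSpace α] {x y z : α → ℝ}
    (hx : Continuous x) (hy : Continuous y) (hz : Continuous z) :
    Continuous fun a => g (pt (x a) (y a) (z a)) :=
  hg.continuous.comp (Slice.continuous_pt.comp (hx.prodMk (hy.prodMk hz)))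

theorem Good.strictAntiOn_x (hg : Good g) {y z : ℝ} (hy : y ∈ I) (hz : z ∈ I) :
    StrictAntiOn (fun x => g (pt x y z)) I := by
  refine strictAntiOn_of_deriv_neg (convex_Icc 0 1)
    (fun x _ => (hasDerivAt_pt₀ hg.smooth x y z).continuousAt.continuousWithinAt) fun x hx => ?_
  rw [interior_Icc] at hx
  rw [(hasDerivAt_pt₀ hg.smooth x y z).deriv]
  exact hg.neg _ (pt_mem_cube (Ioo_subset_Icc_self hx) hy hz) 0

theorem Good.strictAntiOn_y (hg : Good g) {x z : ℝ} (hx : x ∈ I) (hz : z ∈ I) :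
    StrictAntiOn (fun y => g (pt x y z)) I :=
  Slice.strictAntiOn₁ hg.smooth hg.neg hx hz

theorem Good.strictAntiOn_z (hg : Good g) {x y : ℝ} (hx : x ∈ I) (hy : y ∈ I) :
    StrictAntiOn (fun z => g (pt x y z)) I :=
  Slice.strictAntiOn₂ hg.smooth hg.neg hx hy

/-- Monotonicity in all three coordinates. -/
theorem Good.g_le (hg : Good g) {x y z x' y' z' : ℝ} (hx : x ∈ I) (hy : y ∈ I) (hz : z ∈ I)
    (hx' : x' ∈ I) (hy' : y' ∈ I) (hz' : z' ∈ I) (ex : x ≤ x') (ey : y ≤ y') (ez : z ≤ z') :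
    g (pt x' y' z') ≤ g (pt x y z) :=
  ((hg.strictAntiOn_x hy' hz').antitoneOn hx hx' ex).trans
    (((hg.strictAntiOn_y hx hz').antitoneOn hy hy' ey).trans
      ((hg.strictAntiOn_z hx hy).antitoneOn hz hz' ez))

theorem measurable_lenX (hg : ContDiff ℝ 1 g) {α : Type*} [MeasurableSpace α] {s y z : α → ℝ}
    (hs : Measurable s) (hy : Measurable y) (hz : Measurable z) :
    Measurable fun a => lenX g (s a) (y a) (z a) :=
  Slice.measurable_levelTop (F := fun a x => g (pt x (y a) (z a)))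
    (Slice.measurable_g_pt hg measurable_snd (hy.comp measurable_fst) (hz.comp measurable_fst)) hs

theorem measurable_lenY (hg : ContDiff ℝ 1 g) {α : Type*} [MeasurableSpace α] {s x z : α → ℝ}
    (hs : Measurable s) (hx : Measurable x) (hz : Measurable z) :
    Measurable fun a => lenY g (s a) (x a) (z a) :=
  Slice.measurable_width hg hs hx hz

theorem measurable_lenZ (hg : ContDiff ℝ 1 g) {α : Type*} [MeasurableSpace α] {s x y : α → ℝ}
    (hs : Measurable s) (hx : Measurable x) (hy : Measurable y) :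
    Measurable fun a => lenZ g (s a) (x a) (y a) :=
  Slice.measurable_height hg hs hx hy

theorem lenX_antitone_level (g : R3 → ℝ) (y z : ℝ) : Antitone fun s => lenX g s y z :=
  levelTop_antitone _

theorem lenY_antitone_level (g : R3 → ℝ) (x z : ℝ) : Antitone fun s => lenY g s x z :=
  levelTop_antitone _

theorem lenZ_antitone_level (g : R3 → ℝ) (x y : ℝ) : Antitone fun s => lenZ g s x y :=
  levelTop_antitone _

theorem Good.lenX_le (hg : Good g) (s : ℝ) {y z y' z' : ℝ} (hy : y ∈ I) (hz : z ∈ I) (hy' : y' ∈ I)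
    (hz' : z' ∈ I) (ey : y ≤ y') (ez : z ≤ z') : lenX g s y' z' ≤ lenX g s y z :=
  levelTop_mono (fun _ hr => hg.g_le hr hy hz hr hy' hz' le_rfl ey ez) s

theorem Good.lenY_le (hg : Good g) (s : ℝ) {x z x' z' : ℝ} (hx : x ∈ I) (hz : z ∈ I) (hx' : x' ∈ I)
    (hz' : z' ∈ I) (ex : x ≤ x') (ez : z ≤ z') : lenY g s x' z' ≤ lenY g s x z :=
  levelTop_mono (fun _ hr => hg.g_le hx hr hz hx' hr hz' ex le_rfl ez) s

theorem Good.lenZ_le (hg : Good g) (s : ℝ) {x y x' y' : ℝ} (hx : x ∈ I) (hy : y ∈ I) (hx' : x' ∈ I)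
    (hy' : y' ∈ I) (ex : x ≤ x') (ey : y ≤ y') : lenZ g s x' y' ≤ lenZ g s x y :=
  levelTop_mono (fun _ hr => hg.g_le hx hy hr hx' hy' hr ex ey le_rfl) s

theorem Good.lt_lenX_iff (hg : Good g) {s t y z : ℝ} (ht : t ∈ Ioo (0 : ℝ) 1) (hy : y ∈ I)
    (hz : z ∈ I) : t < lenX g s y z ↔ s < g (pt t y z) :=
  lt_levelTop_iff (hg.strictAntiOn_x hy hz)
    (continuous_g_pt hg.smooth continuous_id continuous_const continuous_const).continuousOn ht

theorem Good.lt_lenY_iff (hg : Good g) {s t x z : ℝ} (ht : t ∈ Ioo (0 : ℝ) 1) (hx : x ∈ I)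
    (hz : z ∈ I) : t < lenY g s x z ↔ s < g (pt x t z) :=
  lt_levelTop_iff (hg.strictAntiOn_y hx hz)
    (continuous_g_pt hg.smooth continuous_const continuous_id continuous_const).continuousOn ht

theorem Good.lt_lenZ_iff (hg : Good g) {s t x y : ℝ} (ht : t ∈ Ioo (0 : ℝ) 1) (hx : x ∈ I)
    (hy : y ∈ I) : t < lenZ g s x y ↔ s < g (pt x y t) :=
  lt_levelTop_iff (hg.strictAntiOn_z hx hy)
    (continuous_g_pt hg.smooth continuous_const continuous_const continuous_id).continuousOn ht

theorem Good.lenX_eq_zero_iff (hg : Good g) {s y z : ℝ} (hy : y ∈ I) (hz : z ∈ I) :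
    lenX g s y z = 0 ↔ g (pt 0 y z) ≤ s :=
  levelTop_eq_zero_iff (hg.strictAntiOn_x hy hz)
    (continuous_g_pt hg.smooth continuous_id continuous_const continuous_const).continuousOn

theorem Good.lenY_eq_zero_iff (hg : Good g) {s x z : ℝ} (hx : x ∈ I) (hz : z ∈ I) :
    lenY g s x z = 0 ↔ g (pt x 0 z) ≤ s :=
  levelTop_eq_zero_iff (hg.strictAntiOn_y hx hz)
    (continuous_g_pt hg.smooth continuous_const continuous_id continuous_const).continuousOn

theorem Good.lenX_pos_iff (hg : Good g) {s y z : ℝ} (hy : y ∈ I) (hz : z ∈ I) :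
    0 < lenX g s y z ↔ s < g (pt 0 y z) :=
  levelTop_pos_iff (hg.strictAntiOn_x hy hz)
    (continuous_g_pt hg.smooth continuous_id continuous_const continuous_const).continuousOn

theorem Good.lenY_pos_iff (hg : Good g) {s x z : ℝ} (hx : x ∈ I) (hz : z ∈ I) :
    0 < lenY g s x z ↔ s < g (pt x 0 z) :=
  levelTop_pos_iff (hg.strictAntiOn_y hx hz)
    (continuous_g_pt hg.smooth continuous_const continuous_id continuous_const).continuousOn

theorem Good.g_lenX (hg : Good g) {s y z : ℝ} (hy : y ∈ I) (hz : z ∈ I) (h1 : g (pt 1 y z) ≤ s)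
    (h0 : s ≤ g (pt 0 y z)) : g (pt (lenX g s y z) y z) = s :=
  (levelTop_spec (hg.strictAntiOn_x hy hz)
    (continuous_g_pt hg.smooth continuous_id continuous_const continuous_const).continuousOn h1 h0).2

theorem Good.g_lenY (hg : Good g) {s x z : ℝ} (hx : x ∈ I) (hz : z ∈ I) (h1 : g (pt x 1 z) ≤ s)
    (h0 : s ≤ g (pt x 0 z)) : g (pt x (lenY g s x z) z) = s :=
  (levelTop_spec (hg.strictAntiOn_y hx hz)
    (continuous_g_pt hg.smooth continuous_const continuous_id continuous_const).continuousOn h1 h0).2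

theorem Good.g_lenZ (hg : Good g) {s x y : ℝ} (hx : x ∈ I) (hy : y ∈ I) (h1 : g (pt x y 1) ≤ s)
    (h0 : s ≤ g (pt x y 0)) : g (pt x y (lenZ g s x y)) = s :=
  (levelTop_spec (hg.strictAntiOn_z hx hy)
    (continuous_g_pt hg.smooth continuous_const continuous_const continuous_id).continuousOn h1 h0).2

/-! ## Slice areas -/

theorem integrableOn_lenY (hg : ContDiff ℝ 1 g) (s z : ℝ) :
    IntegrableOn (fun x => lenY g s x z) I :=
  (integrableOn_const isCompact_Icc.measure_lt_top.ne (C := (1 : ℝ))).mono'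
    (measurable_lenY hg measurable_const measurable_id measurable_const).aestronglyMeasurable
    (ae_of_all _ fun x => by
      rw [Real.norm_eq_abs, abs_of_nonneg (lenY_mem_I g s x z).1]
      exact (lenY_mem_I g s x z).2)

theorem integrableOn_lenX (hg : ContDiff ℝ 1 g) (s z : ℝ) :
    IntegrableOn (fun y => lenX g s y z) I :=
  (integrableOn_const isCompact_Icc.measure_lt_top.ne (C := (1 : ℝ))).mono'
    (measurable_lenX hg measurable_const measurable_id measurable_const).aestronglyMeasurable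
    (ae_of_all _ fun y => by
      rw [Real.norm_eq_abs, abs_of_nonneg (lenX_mem_I g s y z).1]
      exact (lenX_mem_I g s y z).2)

/-- The slice area is the plane measure of the slice. -/
theorem sliceArea_eq_plane (hg : ContDiff ℝ 1 g) (s z : ℝ) :
    sliceArea g s z = Slice.sliceArea g s z := by
  rw [Slice.sliceArea, Measure.volume_eq_prod,
    Measure.prod_apply (Slice.measurableSet_sliceSet hg s z),
    show sliceArea g s z = ∫ x in I, lenY g s x z from rfl,
    integral_eq_lintegral_of_nonneg_ae (ae_of_all _ fun x => (lenY_mem_I g s x z).1)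
      (integrableOn_lenY hg s z).aestronglyMeasurable, ← lintegral_indicator measurableSet_Icc]
  congr 1
  refine lintegral_congr fun x => ?_
  by_cases hx : x ∈ I
  · rw [indicator_of_mem hx, lenY_eq, levelTop, ENNReal.ofReal_toReal (volume_segment_ne_top _ s)]
    congr 1
    exact Set.ext fun y => ⟨fun h => ⟨⟨hx, h.1⟩, h.2⟩, fun h => ⟨h.1.2, h.2⟩⟩
  · rw [indicator_of_notMem hx, show Prod.mk x ⁻¹' Slice.sliceSet g s z = ∅ from
      eq_empty_of_forall_notMem fun y hy => hx hy.1.1, measure_empty]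

/-- The same area from the segments in the other direction. -/
theorem sliceArea_eq_integral_lenX (hg : ContDiff ℝ 1 g) (s z : ℝ) :
    sliceArea g s z = ∫ y in I, lenX g s y z := by
  rw [sliceArea_eq_plane hg, Slice.sliceArea, Measure.volume_eq_prod,
    Measure.prod_apply_symm (Slice.measurableSet_sliceSet hg s z),
    integral_eq_lintegral_of_nonneg_ae (ae_of_all _ fun y => (lenX_mem_I g s y z).1)
      (integrableOn_lenX hg s z).aestronglyMeasurable, ← lintegral_indicator measurableSet_Icc]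
  congr 1
  refine lintegral_congr fun y => ?_
  by_cases hy : y ∈ I
  · rw [indicator_of_mem hy, lenX_eq, levelTop, ENNReal.ofReal_toReal (volume_segment_ne_top _ s)]
    congr 1
    exact Set.ext fun x => ⟨fun h => ⟨h.1.1, h.2⟩, fun h => ⟨⟨h.1, hy⟩, h.2⟩⟩
  · rw [indicator_of_notMem hy, show (fun x => (x, y)) ⁻¹' Slice.sliceSet g s z = ∅ from
      eq_empty_of_forall_notMem fun x hx => hy hx.1.2, measure_empty]

theorem measurable_sliceArea (hg : ContDiff ℝ 1 g) : Measurable (Function.uncurry (sliceArea g)) := by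
  rw [show sliceArea g = Slice.sliceArea g from funext₂ (sliceArea_eq_plane hg)]
  exact Slice.measurable_sliceArea hg

theorem sliceArea_mem_I (hg : ContDiff ℝ 1 g) (s z : ℝ) : sliceArea g s z ∈ I := by
  refine ⟨setIntegral_nonneg measurableSet_Icc fun x _ => (lenY_mem_I g s x z).1, ?_⟩
  refine (setIntegral_mono_on (integrableOn_lenY hg s z)
    (integrableOn_const isCompact_Icc.measure_lt_top.ne (C := (1 : ℝ))) measurableSet_Icc
    fun x _ => (lenY_mem_I g s x z).2).trans_eq ?_
  simp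

theorem Good.sliceArea_antitoneOn (hg : Good g) (s : ℝ) : AntitoneOn (sliceArea g s) I := by
  rw [show sliceArea g s = Slice.sliceArea g s from funext (sliceArea_eq_plane hg.smooth s)]
  exact Slice.sliceArea_antitoneOn hg.smooth hg.neg s

theorem Good.sliceArea_continuousOn (hg : Good g) (s : ℝ) : ContinuousOn (sliceArea g s) I := by
  rw [show sliceArea g s = Slice.sliceArea g s from funext (sliceArea_eq_plane hg.smooth s)]
  exact Slice.sliceArea_continuousOn hg.smooth hg.neg s

theorem integrableOn_sliceArea (hg : ContDiff ℝ 1 g) (s : ℝ) : IntegrableOn (sliceArea g s) I :=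
  (integrableOn_const isCompact_Icc.measure_lt_top.ne (C := (1 : ℝ))).mono'
    ((measurable_sliceArea hg).comp measurable_prodMk_left).aestronglyMeasurable
    (ae_of_all _ fun z => by
      rw [Real.norm_eq_abs, abs_of_nonneg (sliceArea_mem_I hg s z).1]
      exact (sliceArea_mem_I hg s z).2)

/-- The volume of a superlevel set is the integral of its slice areas. -/
theorem levelVol_eq_integral (hg : ContDiff ℝ 1 g) (s : ℝ) :
    levelVol g s = ∫ z in I, sliceArea g s z := by
  rw [integral_eq_lintegral_of_nonneg_ae (ae_of_all _ fun z => (sliceArea_mem_I hg s z).1)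
    (integrableOn_sliceArea hg s).aestronglyMeasurable]
  simp only [sliceArea_eq_plane hg]
  rw [← Slice.ofReal_levelVol hg, ENNReal.toReal_ofReal (show 0 ≤ levelVol g s from measureReal_nonneg)]

/-! ## Contacts with the far edges -/

theorem Good.lenY_one_le_sliceArea (hg : Good g) (s : ℝ) {z : ℝ} (hz : z ∈ I) :
    lenY g s 1 z ≤ sliceArea g s z := by
  refine le_trans (le_of_eq (by simp : lenY g s 1 z = ∫ _ in I, lenY g s 1 z)) ?_
  exact setIntegral_mono_on (integrableOn_const isCompact_Icc.measure_lt_top.ne)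
    (integrableOn_lenY hg.smooth s z) measurableSet_Icc fun x hx =>
      hg.lenY_le s hx hz (right_mem_Icc.2 zero_le_one) hz hx.2 le_rfl

theorem Good.lenX_one_le_sliceArea (hg : Good g) (s : ℝ) {z : ℝ} (hz : z ∈ I) :
    lenX g s 1 z ≤ sliceArea g s z := by
  rw [sliceArea_eq_integral_lenX hg.smooth]
  refine le_trans (le_of_eq (by simp : lenX g s 1 z = ∫ _ in I, lenX g s 1 z)) ?_
  exact setIntegral_mono_on (integrableOn_const isCompact_Icc.measure_lt_top.ne)
    (integrableOn_lenX hg.smooth s z) measurableSet_Icc fun y hy =>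
      hg.lenX_le s hy hz (right_mem_Icc.2 zero_le_one) hz hy.2 le_rfl

theorem CubeSorted.swap01 (hs : CubeSorted g) {x y z : ℝ} (hx : x ∈ I) (hy : y ∈ I) (hz : z ∈ I)
    (h : x ≤ y) : g (pt x y z) ≤ g (pt y x z) := by
  have e : pt x y z ∘ Equiv.swap (0 : Fin 3) 1 = pt y x z := by
    funext i
    fin_cases i <;> simp [pt, Equiv.swap_apply_def]
  exact e ▸ hs _ (pt_mem_cube hx hy hz) 0 1 (by decide) h

theorem CubeSorted.swap12 (hs : CubeSorted g) {x y z : ℝ} (hx : x ∈ I) (hy : y ∈ I) (hz : z ∈ I)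
    (h : y ≤ z) : g (pt x y z) ≤ g (pt x z y) := by
  have e : pt x y z ∘ Equiv.swap (1 : Fin 3) 2 = pt x z y := by
    funext i
    fin_cases i <;> simp [pt, Equiv.swap_apply_def]
  exact e ▸ hs _ (pt_mem_cube hx hy hz) 1 2 (by decide) h

theorem CubeSorted.lenX_one_le (hs : CubeSorted g) (s : ℝ) {z : ℝ} (hz : z ∈ I) :
    lenX g s 1 z ≤ lenY g s 1 z :=
  levelTop_mono (fun _ hr => hs.swap01 hr (right_mem_Icc.2 zero_le_one) hz hr.2) s

theorem CubeSorted.lenY_zero_one_le (hs : CubeSorted g) (s : ℝ) :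
    lenY g s 0 1 ≤ lenZ g s 0 1 :=
  levelTop_mono (fun _ hr => hs.swap12 (left_mem_Icc.2 zero_le_one) hr
    (right_mem_Icc.2 zero_le_one) hr.2) s

/-- If the far edge reaches above the cut, all slices below the cut touch both far edges. -/
theorem Good.contacts_pos (hg : Good g) (hs : CubeSorted g) {s z : ℝ}
    (h : cut < lenZ g s 0 1) (hz0 : 0 ≤ z) (hz : z ≤ cut) :
    0 < lenY g s 1 z ∧ 0 < lenX g s 1 z := by
  have h0 : (0 : ℝ) ∈ I := left_mem_Icc.2 zero_le_one
  have h1 : (1 : ℝ) ∈ I := right_mem_Icc.2 zero_le_one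
  have hc : cut ∈ Ioo (0 : ℝ) 1 := by norm_num [cut]
  have hzI : z ∈ I := ⟨hz0, hz.trans hc.2.le⟩
  have key : s < g (pt 0 1 z) := ((hg.lt_lenZ_iff hc h0 h1).1 h).trans_le
    ((hg.strictAntiOn_z h0 h1).antitoneOn hzI (Ioo_subset_Icc_self hc) hz)
  exact ⟨(hg.lenY_pos_iff h1 hzI).2 (key.trans_le (hs.swap01 h0 h1 hzI zero_le_one)),
    (hg.lenX_pos_iff h1 hzI).2 key⟩

end Vale.Agent.P232
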