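import Vale.Agent.P232.Interfaces

/-!
# P232: slicing of smooth strictly decreasing sorted functions on the cube

All levels are handled through lengths of segments, so no implicit function is used: for a strictly
decreasing `g`, the height over `(x, y)` of the level set `g = s` is the length of
`{z ∈ [0,1] | s < g (x,y,z)}`. Everything is stated for almost every level.
-/

open MeasureTheory Set Real
open scoped ENNReal

namespace Vale.Agent.P232

/-- A point of `ℝ³` from its coordinates. -/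
def pt (x y z : ℝ) : R3 := ![x, y, z]

/-- `C¹` with negative partial derivatives on the cube. -/
structure Good (g : R3 → ℝ) : Prop where
  smooth : ContDiff ℝ 1 g
  neg : ∀ x ∈ cube, ∀ i, pd g i x < 0

/-- Cyclic change of coordinates: the new third coordinate is the old first one. -/
def rot (g : R3 → ℝ) : R3 → ℝ := fun p => g (pt (p 2) (p 0) (p 1))

/-- The point reflection of `g` and of its values: levels pass to complements. -/
def flipFun (g : R3 → ℝ) : R3 → ℝ := fun p => 1 - g (1 - p)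

/-- Length of the segment above `(x, y)` in the superlevel set. -/
noncomputable def lenZ (g : R3 → ℝ) (s x y : ℝ) : ℝ :=
  volume.real {z ∈ Icc (0 : ℝ) 1 | s < g (pt x y z)}

/-- Length of the segment in direction `y` at `(x, ·, z)`. -/
noncomputable def lenY (g : R3 → ℝ) (s x z : ℝ) : ℝ :=
  volume.real {y ∈ Icc (0 : ℝ) 1 | s < g (pt x y z)}

/-- Length of the segment in direction `x` at `(·, y, z)`. -/
noncomputable def lenX (g : R3 → ℝ) (s y z : ℝ) : ℝ :=
  volume.real {x ∈ Icc (0 : ℝ) 1 | s < g (pt x y z)}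

/-- Area of the slice at height `z` of the superlevel set. -/
noncomputable def sliceArea (g : R3 → ℝ) (s z : ℝ) : ℝ := ∫ x in Icc (0 : ℝ) 1, lenY g s x z

/-- Length of the slice at height `z` of the level set, inside the square. -/
noncomputable def sliceLen (g : R3 → ℝ) (s z : ℝ) : ℝ≥0∞ :=
  ∫⁻ x in {x ∈ Icc (0 : ℝ) 1 | g (pt x 1 z) < s ∧ s < g (pt x 0 z)},
    ENNReal.ofReal (sqrt (pd g 0 (pt x (lenY g s x z) z) ^ 2 + pd g 1 (pt x (lenY g s x z) z) ^ 2)
      / (-pd g 1 (pt x (lenY g s x z) z)))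

/-- Area of the level set inside the cube, as a graph over `(x, y)`. -/
noncomputable def levelArea (g : R3 → ℝ) (s : ℝ) : ℝ≥0∞ :=
  ∫⁻ x in Icc (0 : ℝ) 1, ∫⁻ y in {y ∈ Icc (0 : ℝ) 1 | g (pt x y 1) < s ∧ s < g (pt x y 0)},
    ENNReal.ofReal (gradNorm g (pt x y (lenZ g s x y)) / (-pd g 2 (pt x y (lenZ g s x y))))

/-- Coarea: localised in the level. -/
def StmtCoarea : Prop :=
  ∀ g : R3 → ℝ, Good g → ∀ h : ℝ → ℝ≥0∞, Measurable h →
    ∫⁻ x in cube, h (g x) * ENNReal.ofReal (gradNorm g x) = ∫⁻ s, h s * levelArea g s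

/-- The calibrated slicing inequality: `w` acts on slice lengths, `σ` on changes of slice area. -/
def StmtSlice : Prop :=
  ∀ g : R3 → ℝ, Good g → ∀ w σ : ℝ → ℝ → ℝ,
    Measurable (Function.uncurry w) → Measurable (Function.uncurry σ) →
    (∀ s z, 0 ≤ w s z) → (∀ s a, 0 ≤ σ s a) →
    (∀ s, ∀ z ∈ Icc (0 : ℝ) 1, w s z ^ 2 + σ s (sliceArea g s z) ^ 2 ≤ 1) →
    ∀ᵐ s : ℝ,
      (∫⁻ z in Icc (0 : ℝ) 1, ENNReal.ofReal (w s z) * sliceLen g s z) +
        (∫⁻ a in Icc (sliceArea g s 1) (sliceArea g s 0), ENNReal.ofReal (σ s a)) ≤ levelArea g s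

/-- `∫₀¹ √(1 - k² x²)`, from the field with horizontal component `k x`. -/
noncomputable def tiltConst (k : ℝ) : ℝ := ∫ x in (0 : ℝ)..1, sqrt (1 - k ^ 2 * x ^ 2)

/-- Slices without contact with the far edges. -/
def StmtPlanarNone : Prop :=
  ∀ g : R3 → ℝ, Good g → ∀ᵐ s : ℝ, ∀ᵐ z ∂(volume.restrict (Icc (0 : ℝ) 1)),
    lenY g s 1 z = 0 → lenX g s 1 z = 0 →
      ENNReal.ofReal (sqrt (π * sliceArea g s z)) ≤ sliceLen g s z

/-- Slices touching one far edge. -/
def StmtPlanarOne : Prop :=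
  ∀ g : R3 → ℝ, Good g → ∀ k ∈ Icc (0 : ℝ) 1, ∀ᵐ s : ℝ, ∀ᵐ z ∂(volume.restrict (Icc (0 : ℝ) 1)),
    (0 < lenY g s 1 z → lenX g s 1 z = 0 →
      ENNReal.ofReal (k * (sliceArea g s z - lenY g s 1 z) + tiltConst k) ≤ sliceLen g s z) ∧
    (0 < lenX g s 1 z → lenY g s 1 z = 0 →
      ENNReal.ofReal (k * (sliceArea g s z - lenX g s 1 z) + tiltConst k) ≤ sliceLen g s z)

/-- Slices touching both far edges: the two legs, and the chord. -/
def StmtPlanarBoth : Prop :=
  ∀ g : R3 → ℝ, Good g → ∀ᵐ s : ℝ, ∀ᵐ z ∂(volume.restrict (Icc (0 : ℝ) 1)),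
    0 < lenY g s 1 z → 0 < lenX g s 1 z →
      ENNReal.ofReal
          ((1 - sliceArea g s z) / (1 - lenY g s 1 z) + π * (1 - lenY g s 1 z) / 4) ≤ sliceLen g s z ∧
      ENNReal.ofReal
          ((1 - sliceArea g s z) / (1 - lenX g s 1 z) + π * (1 - lenX g s 1 z) / 4) ≤ sliceLen g s z ∧
      ENNReal.ofReal (sqrt (π * (1 - sliceArea g s z))) ≤ sliceLen g s z ∧
      ENNReal.ofReal (((1 - lenY g s 1 z) + (1 - lenX g s 1 z)) / sqrt 2) ≤ sliceLen g s z

/-- The height that separates the two cases. -/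
noncomputable def cut : ℝ := 1 / 10

/-- Slice bound of case C (all contacts at most `cut`). -/
noncomputable def pC (a : ℝ) : ℝ :=
  min (sqrt (π * a)) (min (812 / 1000 + 77 / 100 * a) (1272 / 1000))

/-- Slice bound of case B below the cut; `q` is the contact at the cut. -/
noncomputable def pPre (q a : ℝ) : ℝ :=
  if π * (1 - q) ^ 2 ≤ 4 * (1 - a) then (1 - a) / (1 - q) + π * (1 - q) / 4
  else sqrt (π * (1 - a))

/-- Slice bound of case B above the cut: one far edge with the tilts `0` and `3/10`, or both. -/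
noncomputable def pPost (q a : ℝ) : ℝ :=
  min (sqrt (π * a))
    (min (max 1 (3 / 10 * (a - q) + tiltConst (3 / 10)))
      (max (sqrt (π * (1 - a))) (sqrt 2 * (1 - q))))

/-- The weight of area changes in the calibration by the line `c + l * a` below `p`. -/
noncomputable def sig (c l : ℝ) (p : ℝ → ℝ) (a : ℝ) : ℝ :=
  sqrt (1 - (max (c + l * a) 0 / p a) ^ 2)

/-- The one-axis inequality of case C, with measurably chosen calibrations. -/
def StmtCaseC : Prop :=
  ∃ c l : ℝ × ℝ × ℝ → ℝ, Measurable c ∧ Measurable l ∧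
    ∀ α β v : ℝ, 0 ≤ β → β ≤ v → v ≤ α → α ≤ 1 → v ≤ 1 / 2 →
      (∀ a ∈ Icc β α, c (α, β, v) + l (α, β, v) * a ≤ pC a) ∧
      cubeCandidate v ≤ c (α, β, v) + l (α, β, v) * v +
        ∫ a in β..α, sig (c (α, β, v)) (l (α, β, v)) pC a

/-- The two-phase inequality of case B: `α, γ, β` are the slice areas at `0`, `cut`, `1`. -/
def StmtCaseB : Prop :=
  ∃ c₁ c₂ l : ℝ × ℝ × ℝ × ℝ × ℝ → ℝ, Measurable c₁ ∧ Measurable c₂ ∧ Measurable l ∧
    ∀ α γ β q v : ℝ, 0 ≤ β → β ≤ γ → γ ≤ α → α ≤ 1 → 0 ≤ q → q ≤ γ → v ≤ 1 / 2 →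
      v ≤ cut * α + (1 - cut) * γ → cut * γ + (1 - cut) * β ≤ v →
      (∀ a ∈ Icc γ α, c₁ (α, γ, β, q, v) + l (α, γ, β, q, v) * a ≤ pPre q a) ∧
      (∀ a ∈ Icc β γ, c₂ (α, γ, β, q, v) + l (α, γ, β, q, v) * a ≤ pPost q a) ∧
      cubeCandidate v ≤
        cut * c₁ (α, γ, β, q, v) + (1 - cut) * c₂ (α, γ, β, q, v) + l (α, γ, β, q, v) * v +
          (∫ a in γ..α, sig (c₁ (α, γ, β, q, v)) (l (α, γ, β, q, v)) (pPre q) a) +
          ∫ a in β..γ, sig (c₂ (α, γ, β, q, v)) (l (α, γ, β, q, v)) (pPost q) a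

/-- The inequality at almost every level. -/
def StmtLevel : Prop :=
  ∀ g : R3 → ℝ, Good g → CubeSorted g → ∀ᵐ s : ℝ, levelVol g s ≤ 1 / 2 →
    ENNReal.ofReal (cubeCandidate (levelVol g s)) ≤ levelArea g s

end Vale.Agent.P232
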