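import Vale.Agent.P232.Interfaces

/-!
# P232: substitution along one line

For a function that is strictly decreasing on the unit interval, the level is the length of the
superlevel set, and the change of variables turns `-F'` weighted integrals into integrals over the
levels. The same file has the coordinates of the cube.
-/

open MeasureTheory Set
open scoped ENNReal

namespace Vale.Agent.P232.Slice

/-- The unit interval. -/
abbrev I : Set ℝ := Set.Icc 0 1

/-- The length of the superlevel set in the unit interval. -/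
noncomputable def levelTop (F : ℝ → ℝ) (t : ℝ) : ℝ := (volume {s ∈ I | t < F s}).toReal

theorem levelTop_apply {F : ℝ → ℝ} (hF : StrictAntiOn F I) {s : ℝ} (hs : s ∈ I) :
    levelTop F (F s) = s := by
  have h : {r ∈ I | F s < F r} = Set.Ico 0 s := by
    ext r
    simp only [mem_ofPred_eq, mem_Ico]
    exact ⟨fun ⟨hr, h⟩ => ⟨hr.1, (hF.lt_iff_gt hs hr).1 h⟩,
      fun ⟨h1, h2⟩ => ⟨⟨h1, h2.le.trans hs.2⟩, hF ⟨h1, h2.le.trans hs.2⟩ hs h2⟩⟩
  rw [levelTop, h, Real.volume_Ico, sub_zero, ENNReal.toReal_ofReal hs.1]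

theorem measurable_levelTop {α : Type*} [MeasurableSpace α] {F : α → ℝ → ℝ} {t : α → ℝ}
    (hF : Measurable (Function.uncurry F)) (ht : Measurable t) :
    Measurable fun a => levelTop (F a) (t a) := by
  have hS : MeasurableSet {p : α × ℝ | p.2 ∈ I ∧ t p.1 < F p.1 p.2} :=
    (measurable_snd measurableSet_Icc).inter (measurableSet_lt (ht.comp measurable_fst) hF)
  exact (measurable_measure_prodMk_left (ν := volume) hS).ennreal_toReal

/-- Change of variables from positions to levels. -/
theorem lintegral_level {F F' : ℝ → ℝ} (hd : ∀ s ∈ I, HasDerivAt F (F' s) s)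
    (hneg : ∀ s ∈ I, F' s < 0) (hval : ∀ s ∈ I, F s ∈ I) (φ : ℝ → ℝ → ℝ≥0∞) :
    ∫⁻ t in I, (Set.Ioo (F 1) (F 0)).indicator (fun t => φ (levelTop F t) t) t =
      ∫⁻ s in I, ENNReal.ofReal (-F' s) * φ s (F s) := by
  have hc : ContinuousOn F I := fun s hs => (hd s hs).continuousAt.continuousWithinAt
  have hanti : StrictAntiOn F I := by
    refine strictAntiOn_of_deriv_neg (convex_Icc 0 1) hc fun s hs => ?_
    rw [interior_Icc] at hs
    rw [(hd s (Ioo_subset_Icc_self hs)).deriv]
    exact hneg s (Ioo_subset_Icc_self hs)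
  have h0 : (0 : ℝ) ∈ I := left_mem_Icc.2 zero_le_one
  have h1 : (1 : ℝ) ∈ I := right_mem_Icc.2 zero_le_one
  have himg : F '' I = Set.Icc (F 1) (F 0) := by
    refine Subset.antisymm ?_ (intermediate_value_Icc' zero_le_one hc)
    rintro _ ⟨s, hs, rfl⟩
    exact ⟨hanti.antitoneOn hs h1 hs.2, hanti.antitoneOn h0 hs hs.1⟩
  rw [lintegral_indicator measurableSet_Ioo, Measure.restrict_restrict measurableSet_Ioo,
    inter_eq_left.2 (Ioo_subset_Icc_self.trans (Icc_subset_Icc (hval 1 h1).1 (hval 0 h0).2)),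
    setLIntegral_congr Ioo_ae_eq_Icc, ← himg,
    lintegral_image_eq_lintegral_abs_deriv_mul measurableSet_Icc
      (fun s hs => (hd s hs).hasDerivWithinAt) hanti.injOn]
  refine setLIntegral_congr_fun measurableSet_Icc fun s hs => ?_
  simp only [levelTop_apply hanti hs, abs_of_neg (hneg s hs)]

/-- The point with the three given coordinates. -/
abbrev pt (x y z : ℝ) : R3 := ![x, y, z]

theorem continuous_pt : Continuous fun p : ℝ × ℝ × ℝ => pt p.1 p.2.1 p.2.2 := by
  refine continuous_pi fun i => ?_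
  fin_cases i <;> simp <;> fun_prop

theorem pt_mem_cube {x y z : ℝ} (hx : x ∈ I) (hy : y ∈ I) (hz : z ∈ I) : pt x y z ∈ cube := by
  simp only [cube, mem_Icc, Pi.le_def, Pi.zero_apply, Pi.one_apply]
  constructor <;> intro i <;> fin_cases i <;> simp [hx.1, hx.2, hy.1, hy.2, hz.1, hz.2]

theorem hasDerivAt_pt₁ {g : R3 → ℝ} (hg : ContDiff ℝ 1 g) (x y z : ℝ) :
    HasDerivAt (fun y => g (pt x y z)) (pd g 1 (pt x y z)) y := by
  have h : HasDerivAt (fun y => pt x y z) (Pi.single 1 1) y := by
    refine hasDerivAt_pi.2 fun i => ?_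
    fin_cases i
    · simpa using hasDerivAt_const y x
    · simp
      exact hasDerivAt_id y
    · simpa using hasDerivAt_const y z
  exact ((hg.differentiable one_ne_zero) _).hasFDerivAt.comp_hasDerivAt y h

theorem hasDerivAt_pt₂ {g : R3 → ℝ} (hg : ContDiff ℝ 1 g) (x y z : ℝ) :
    HasDerivAt (fun z => g (pt x y z)) (pd g 2 (pt x y z)) z := by
  have h : HasDerivAt (fun z => pt x y z) (Pi.single 2 1) z := by
    refine hasDerivAt_pi.2 fun i => ?_
    fin_cases i
    · simpa using hasDerivAt_const z x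
    · simpa using hasDerivAt_const z y
    · simp
      exact hasDerivAt_id z
  exact ((hg.differentiable one_ne_zero) _).hasFDerivAt.comp_hasDerivAt z h

theorem measurableSet_cube : MeasurableSet cube := measurableSet_Icc

/-- The coordinates of the cube. -/
theorem lintegral_cube {f : R3 → ℝ≥0∞} (hf : Measurable f) :
    ∫⁻ p in cube, f p = ∫⁻ x in I, ∫⁻ y in I, ∫⁻ z in I, f (pt x y z) := by
  have h1 := (volume_preserving_piFinSuccAbove (fun _ : Fin 3 => ℝ) 0).symm
  have h2 := (volume_preserving_finTwoArrow ℝ).symm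
  have he : MeasurePreserving (fun p : ℝ × ℝ × ℝ => pt p.1 p.2.1 p.2.2) := by
    have hp : MeasurePreserving (Prod.map id (MeasurableEquiv.finTwoArrow (α := ℝ)).symm)
        (volume : Measure (ℝ × ℝ × ℝ)) (volume : Measure (ℝ × (Fin 2 → ℝ))) :=
      (MeasurePreserving.id (volume : Measure ℝ)).prod h2
    have e : (fun p : ℝ × ℝ × ℝ => pt p.1 p.2.1 p.2.2) =
        (MeasurableEquiv.piFinSuccAbove (fun _ : Fin 3 => ℝ) 0).symm ∘
          Prod.map id (MeasurableEquiv.finTwoArrow (α := ℝ)).symm := by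
      funext p
      ext i
      fin_cases i <;> simp [MeasurableEquiv.piFinSuccAbove, MeasurableEquiv.finTwoArrow,
        MeasurableEquiv.piFinTwo, Fin.insertNthEquiv, piFinTwoEquiv]
    rw [e]
    exact h1.comp hp
  have hpre : (fun p : ℝ × ℝ × ℝ => pt p.1 p.2.1 p.2.2) ⁻¹' cube = I ×ˢ I ×ˢ I := by
    ext ⟨x, y, z⟩
    refine ⟨fun h => ?_, fun h => pt_mem_cube h.1 h.2.1 h.2.2⟩
    exact ⟨⟨h.1 0, h.2 0⟩, ⟨h.1 1, h.2 1⟩, ⟨h.1 2, h.2 2⟩⟩
  rw [← he.setLIntegral_comp_preimage measurableSet_cube hf, hpre]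
  have hm : Measurable fun p : ℝ × ℝ × ℝ => f (pt p.1 p.2.1 p.2.2) :=
    hf.comp continuous_pt.measurable
  rw [Measure.volume_eq_prod, setLIntegral_prod _ hm.aemeasurable]
  refine setLIntegral_congr_fun measurableSet_Icc fun x _ => ?_
  rw [Measure.volume_eq_prod]
  exact setLIntegral_prod _ (hm.comp measurable_prodMk_left).aemeasurable

end Vale.Agent.P232.Slice
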